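import Claimed.Agent.R282.Col.R.CLLeaves

/-!
# Row 282, Col, layer (R): the combinatorial lemma (CL)  (glue, no sorry of its own)

Induction on the length of `x` (measure `colF_meas`), `α` a simple root of the subsystem with `s_α x < x`, lifting property.
-/

set_option autoImplicit false

namespace Claimed.Agent.R282

variable {n : ℕ}

theorem colK_ss (α : RootD n) (u : Vec n → Vec n) : (fun z => refl α (refl α (u z))) = u := by
  funext z
  exact sc_refl_refl α (u z)

theorem colK_dot_s (α : RootD n) (z : Vec n) : dot (refl α z) α.vec = - dot z α.vec := by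
  rw [sc_dot_refl_left, sc_refl_self, dot_neg_right]

/-- `u ≥ v`, `s u < u`, `s v > v` ⇒ `s u ≥ v` -/
theorem colK_lift_mix {Q : RootD n → Prop} (hQ : QSys Q) {α : RootD n} (hα : SimpQ Q α)
    (u v : Vec n → Vec n) (hu : IsWf u) (h : GeQ Q u v) (hd : dot (u (rhoV n)) α.vec < 0)
    (hd' : 0 < dot (v (rhoV n)) α.vec) : GeQ Q (fun z => refl α (u z)) v := by
  have h1 := colK_lift_max hQ hα u v hu h hd
  have h2 := colK_lift_min hQ hα u _ hu h1 hd (by
    show dot (refl α (v (rhoV n))) α.vec < 0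
    rw [colK_dot_s]; linarith)
  rwa [colK_ss] at h2

/-- the end of the step: a witness for `(s_α x, y)` with `⟨y'' ω, α⟩ ≥ 0` gives a witness for `(x, y)` -/
theorem colK_finish {Q : RootD n → Prop} (hQ : QSys Q) {α : RootD n} (hα : SimpQ Q α) (ω : Vec n)
    (hω : Dom ω) (x y x'' : Vec n → Vec n) (M : List (RootD n)) (hx : IsWf x) (hE : EvQ Q (x ω))
    (hxα : dot (x (rhoV n)) α.vec < 0) (W : CLWit Q ω (fun z => refl α (x z)) y x'' M)
    (hnn : 0 ≤ dot (colRefl M x'' ω) α.vec) : ∃ x' M', CLWit Q ω x y x' M' := by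
  have hle : dot (x ω) α.vec ≤ 0 := pl_frame_nonpos x hx α hxα ω hω
  rcases hE α hα.1 with hp | hp | hp
  · exact ⟨_, _, colK_T1 hα ω x y x'' M hxα hp W⟩
  · linarith
  · have h7 := colK_T7 hα ω x y x'' M hE hp W
    have h8 := colK_T8 ω x y x'' M hp W
    rw [h8] at hnn
    rcases colK_T9 α M h7 hnn with h0 | ⟨γ₁, M₀, hperm, h1, h0⟩
    · exact ⟨_, _, colK_T4 hQ hα ω x y x'' M hx hxα hp W h0⟩
    · have W' := colK_T6 ω _ y x'' M _ hperm W
      have hne : dot (refl α (x'' (rhoV n))) γ₁.vec ≠ 0 :=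
        pl_frame_rho_ne (fun z => refl α (x'' z)) (colF_wf_refl α x'' W.wf) γ₁
      rcases lt_or_gt_of_ne hne with hg | hg
      · exact ⟨_, _, colK_T5a hQ hα ω x y x'' γ₁ M₀ hx hxα hp W' h1 h0 hg⟩
      · exact ⟨_, _, colK_T5b hQ hα ω x y x'' γ₁ M₀ hx hxα hp W' h1 h0 hg⟩

/-- (CL) for a subsystem -/
theorem colK_main {Q : RootD n → Prop} (hQ : QSys Q) (ω : Vec n) (hω : Dom ω) :
    ∀ (N : ℕ) (x y : Vec n → Vec n), colF_meas x ≤ N → IsWf x → EvQ Q (x ω) → GeQ Q x y →
      ∃ x' M, CLWit Q ω x y x' M := by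
  intro N
  induction N with
  | zero =>
    intro x y hN hx hE hxy
    rcases Relation.ReflTransGen.cases_head hxy with rfl | ⟨c, ⟨β, _, hβp, hβn, rfl⟩, _⟩
    · exact ⟨x, [], hx, Relation.ReflTransGen.refl, rfl, fun _ h => absurd h List.not_mem_nil,
        List.Pairwise.nil, Relation.ReflTransGen.refl, rfl⟩
    · have := colF_meas_lt x hx β ((pl_pos_iff β).1 hβp) hβn
      omega
  | succ N ih =>
    intro x y hN hx hE hxy
    rcases Relation.ReflTransGen.cases_head hxy with rfl | ⟨c, ⟨β, hβQ, hβp, hβn, rfl⟩, _⟩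
    · exact ⟨x, [], hx, Relation.ReflTransGen.refl, rfl, fun _ h => absurd h List.not_mem_nil,
        List.Pairwise.nil, Relation.ReflTransGen.refl, rfl⟩
    obtain ⟨α, hα, hxα⟩ := colK_exists_simple hQ x β hβQ hβp hβn
    have hy : IsWf y := colK_wf_ge x y hx hxy
    have hsx : IsWf (fun z => refl α (x z)) := colF_wf_refl α x hx
    have hmeas : colF_meas (fun z => refl α (x z)) ≤ N := by
      have := colF_meas_lt x hx α ((pl_pos_iff α).1 hα.2.1) hxα
      omega
    have hEs : EvQ Q ((fun z => refl α (x z)) ω) := colK_ev_refl hQ α hα.1 _ hE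
    rcases lt_or_gt_of_ne (pl_frame_rho_ne y hy α) with hyα | hyα
    · -- case B
      obtain ⟨x'', M, W⟩ := ih _ _ hmeas hsx hEs (colK_lift_min hQ hα x y hx hxy hxα hyα)
      have hy'' : IsWf (colRefl M x'') := colK_refl_wf M x'' W.wf
      rcases lt_or_gt_of_ne (pl_frame_rho_ne _ hy'' α) with he | he
      · have hnn : 0 ≤ dot (colRefl M x'' ω) α.vec := by
          rw [W.same']
          show 0 ≤ dot (refl α (y ω)) α.vec
          rw [colK_dot_s]
          have := pl_frame_nonpos y hy α hyα ω hω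
          linarith
        exact colK_finish hQ hα ω hω x y x'' M hx hE hxα
          (colK_T2 hQ hα ω hω _ y x'' M hy hyα W he) hnn
      · exact ⟨_, _, colK_T3 hQ hα ω hω x y x'' M hx hxα W he⟩
    · -- case A
      obtain ⟨x'', M, W⟩ := ih _ _ hmeas hsx hEs (colK_lift_mix hQ hα x y hx hxy hxα hyα)
      refine colK_finish hQ hα ω hω x y x'' M hx hE hxα W ?_
      rw [W.same']
      exact pl_frame_nonneg y hy α hyα ω hω

/-- (CL): a nice pair between `f` and `g` -/
theorem colR_cl (hn : 2 ≤ n) (k : Fin n) (hk : IsExt n k) (f g : Vec n → Vec n) (hf : IsWf f)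
    (hfg : Relation.ReflTransGen (DownExt (fundV n k)) f g) :
    ∃ (f' : Vec n → Vec n) (M : List (RootD n)), BGe Ty.D f f' ∧ f' (fundV n k) = f (fundV n k) ∧
      ColNice f' M ∧ (∀ γ ∈ M, dot (f' (fundV n k)) γ.vec = -2) ∧ BGe Ty.D (colRefl M f') g ∧
      g (fundV n k) = f (fundV n k) + (2 : ℝ) • (M.map RootD.vec).sum := by
  have ha := colK_U2 k hk f hf
  obtain ⟨f', M, W⟩ := colK_main (colK_U1 (f (fundV n k))) (fundV n k) (col_dom_fund hn k) _ f g
    le_rfl hf (colK_U3 _ ha) (colK_U4 k hk f g hf hfg)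
  have hm : ∀ γ ∈ M, dot (f' (fundV n k)) γ.vec = -2 := fun γ hγ => (W.mem γ hγ).2.2
  refine ⟨f', M, colK_U5 _ _ _ W.ge, W.same, ⟨fun γ hγ => ⟨(W.mem γ hγ).2.1, ?_⟩, ?_⟩, hm,
    colK_U5 _ _ _ W.ge', ?_⟩
  · exact colF_down_of f' W.wf γ _ (col_dom_fund hn k) (by rw [hm γ hγ]; norm_num)
  · have hmem : ∀ γ ∈ M, dot (f (fundV n k)) γ.vec = -2 := fun γ hγ => by rw [← W.same]; exact hm γ hγ
    have := W.orth
    clear W hm
    induction M with
    | nil => exact List.Pairwise.nil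
    | cons γ M ih =>
      rw [List.pairwise_cons] at this ⊢
      refine ⟨fun γ' hγ' => colK_U6 _ ha γ γ' (hmem γ (List.mem_cons_self ..))
        (hmem γ' (List.mem_cons_of_mem _ hγ')) (this.1 γ' hγ'), ih (fun γ' hγ' =>
          hmem γ' (List.mem_cons_of_mem _ hγ')) this.2⟩
  · rw [← W.same', colK_refl_val M W.orth f' _ hm, W.same]

end Claimed.Agent.R282
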