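import Claimed.Agent.R282.Col.R.Defs
import Claimed.Agent.R282.Col.FoldLeaves
import Claimed.Agent.R282.Col.Small

/-!
# Row 282, Col, layer (R): leaves of the combinatorial lemma (CL)  (statements by helper216)

`Q` = a set of roots closed under its own reflections (here: the roots of `D_S × D_{S^c}`).  `DownQ`, `GeQ` = Bruhat steps / order using only roots of `Q`; `SimpQ` = simple roots of `Q ∩ Φ⁺`.
Frames are functions `u : Vec n → Vec n`, `IsWf u` (`u = w.act`); `s_α u` is written `fun z => refl α (u z)`.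
Tools: `Sched/Weyl.lean` (`sc_refl_*`, `sc_dot_refl_*`, `reflRoot`, `sc_reflRoot_vec`, `sc_vec_dot_vec_int`, `sc_vec_dot_vec_two`, `sc_finite_RootD`), `S2AB/PL/Basic.lean` (`pl_frame_rho_ne`, `pl_frame_nonpos`, `pl_frame_nonneg`, `pl_pos_iff`),
`Col/FoldW.lean`, `Col/FoldR.lean` (`colF_wf_refl`, `colF_down_of`, `colF_meas_lt`).  The same lemmas for the FULL root system are proved in `S2C/B/{Simple,Lift}.lean` (abstract datum): copy the proofs.

The whole recursion has been validated by brute force (`n ≤ 5`, all `S`, all pairs).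

LEAVES: L-COLR-K1 (`colK_neg`, `colK_simple_perm`, `colK_exists_simple`), K2 (`colK_down_simple`, `colK_lift_max`, `colK_lift_min`), K3 (`colK_refl_*`: list reflections), K4 (`colK_T1`, `colK_T2`, `colK_T3`),
K5 (`colK_T4`, `colK_T5a`, `colK_T5b`), K6 (`colK_T6`, `colK_T7`, `colK_T8`, `colK_T9`), K7 (`colK_U*`: the concrete subsystem).
-/

set_option autoImplicit false

namespace Claimed.Agent.R282

variable {n : ℕ}

/-- a set of roots closed under its reflections -/
structure QSys (Q : RootD n → Prop) : Prop where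
  refl : ∀ α β, Q α → Q β → Q (reflRoot α β)
  congr : ∀ α β : RootD n, α.vec = β.vec → Q α → Q β

/-- downward reflection in a root of `Q` -/
def DownQ (Q : RootD n → Prop) (f g : Vec n → Vec n) : Prop :=
  ∃ β : RootD n, Q β ∧ β.Pos ∧ dot (f (rhoV n)) β.vec < 0 ∧ g = fun x => refl β (f x)

/-- the Bruhat order of the subsystem -/
def GeQ (Q : RootD n → Prop) : (Vec n → Vec n) → (Vec n → Vec n) → Prop :=
  Relation.ReflTransGen (DownQ Q)

/-- simple roots of the subsystem -/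
def SimpQ (Q : RootD n → Prop) (α : RootD n) : Prop :=
  Q α ∧ α.Pos ∧ ∀ β γ : RootD n, Q β → Q γ → β.Pos → γ.Pos → α.vec ≠ β.vec + γ.vec

/-- `a / 2` is minuscule for the subsystem -/
def EvQ (Q : RootD n → Prop) (a : Vec n) : Prop :=
  ∀ β, Q β → dot a β.vec = 0 ∨ dot a β.vec = 2 ∨ dot a β.vec = -2

/-- a nice pair `x'`, `(∏_{γ ∈ M} s_γ) x'` between `x` and `y` -/
structure CLWit (Q : RootD n → Prop) (ω : Vec n) (x y x' : Vec n → Vec n) (M : List (RootD n)) :
    Prop where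
  wf : IsWf x'
  ge : GeQ Q x x'
  same : x' ω = x ω
  mem : ∀ γ ∈ M, Q γ ∧ γ.Pos ∧ dot (x' ω) γ.vec = -2
  orth : M.Pairwise (fun γ γ' => dot γ.vec γ'.vec = 0)
  ge' : GeQ Q (colRefl M x') y
  same' : colRefl M x' ω = y ω

/-! ## (K1) simple roots of the subsystem -/

/-- `reflRoot β β` has vector `- β` -/
theorem colK_neg {Q : RootD n → Prop} (hQ : QSys Q) (β γ : RootD n) (hβ : Q β) (h : γ.vec = - β.vec) :
    Q γ := by
  refine hQ.congr (reflRoot β β) γ ?_ (hQ.refl β β hβ hβ)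
  rw [sc_reflRoot_vec, sc_refl_self, h]

/-- pairing `0`: unchanged; `-1`: `β + α`; `1`: `β - α` is a root of `Q`, if it were negative then `α = β + (α - β)`; `± 2`: `β = ± α`, excluded. -/
theorem colK_simple_perm {Q : RootD n → Prop} (hQ : QSys Q) {α β : RootD n} (hα : SimpQ Q α) (hβ : Q β)
    (hp : β.Pos) (hne : β.vec ≠ α.vec) : (reflRoot α β).Pos := by
  have hαp : 0 < dot α.vec (rhoV n) := hα.2.1
  have hβp : 0 < dot β.vec (rhoV n) := hp
  have e1 : dot (reflRoot α β).vec (rhoV n)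
      = dot β.vec (rhoV n) - dot β.vec α.vec * dot α.vec (rhoV n) := by
    rw [sc_reflRoot_vec, refl, dot_sub_left, dot_smul_left]
  show 0 < dot (reflRoot α β).vec (rhoV n)
  obtain ⟨z, hz, hz1, hz2⟩ := sc_vec_dot_vec_int β α
  have hz2' : z ≠ 2 := by
    rintro rfl
    exact hne (sc_vec_dot_vec_two β α (by rw [hz]; norm_num)).symm
  rcases (by omega : z ≤ 0 ∨ z = 1) with h | h
  · rw [e1, hz]
    have : (z : ℝ) ≤ 0 := by exact_mod_cast h
    nlinarith
  · subst h
    have hne0 : dot (reflRoot α β).vec (rhoV n) ≠ 0 := by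
      rw [dot_comm]
      exact pl_rho_vec_ne _
    rcases lt_or_gt_of_ne hne0 with h3 | h3
    · exfalso
      have hv : (reflRoot α β).opp.vec = - (reflRoot α β).vec := sc_neg_vec _
      refine hα.2.2 β (reflRoot α β).opp hβ (colK_neg hQ _ _ (hQ.refl α β hα.1 hβ) hv) hp ?_ ?_
      · show 0 < dot (reflRoot α β).opp.vec (rhoV n)
        rw [hv, dot_neg_left]
        linarith
      · rw [hv, sc_reflRoot_vec, refl, hz]
        simp
    · exact h3

/-- a root of `Q ∩ Φ⁺` of minimal height among those with `(f ρ)·β < 0` is simple -/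
theorem colK_exists_simple {Q : RootD n → Prop} (hQ : QSys Q) (f : Vec n → Vec n) (β : RootD n)
    (hβ : Q β) (hp : β.Pos) (hneg : dot (f (rhoV n)) β.vec < 0) :
    ∃ α, SimpQ Q α ∧ dot (f (rhoV n)) α.vec < 0 := by
  have : Finite (RootD n) := sc_finite_RootD
  have : Nonempty {γ : RootD n // Q γ ∧ γ.Pos ∧ dot (f (rhoV n)) γ.vec < 0} := ⟨⟨β, hβ, hp, hneg⟩⟩
  obtain ⟨⟨α, hαQ, hαp, hαn⟩, hmin⟩ := Finite.exists_min
    (fun γ : {γ : RootD n // Q γ ∧ γ.Pos ∧ dot (f (rhoV n)) γ.vec < 0} => dot γ.1.vec (rhoV n))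
  refine ⟨α, ⟨hαQ, hαp, fun β₁ β₂ h1 h2 p1 p2 e => ?_⟩, hαn⟩
  have q1 : 0 < dot β₁.vec (rhoV n) := p1
  have q2 : 0 < dot β₂.vec (rhoV n) := p2
  have e2 : dot α.vec (rhoV n) = dot β₁.vec (rhoV n) + dot β₂.vec (rhoV n) := by
    rw [e, dot_add_left]
  rw [e, dot_add_right] at hαn
  rcases (by by_contra hcon; push Not at hcon; linarith :
      dot (f (rhoV n)) β₁.vec < 0 ∨ dot (f (rhoV n)) β₂.vec < 0) with h | h
  · have := hmin ⟨β₁, h1, p1, h⟩
    simp only at this
    linarith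
  · have := hmin ⟨β₂, h2, p2, h⟩
    simp only at this
    linarith

/-! ## (K2) the lifting property -/

theorem colK2_conj (α β : RootD n) (x : Vec n) :
    refl α (refl β x) = refl (reflRoot α β) (refl α x) := by
  have := sc_refl_map (WB.ofRoot α) β x
  rw [sc_ofRoot_act, sc_ofRoot_act] at this
  exact this.symm

theorem colK2_dot_s (α : RootD n) (z : Vec n) : dot (refl α z) α.vec = - dot z α.vec := by
  rw [sc_dot_refl_left, sc_refl_self, dot_neg_right]

theorem colK2_ss (α : RootD n) (u : Vec n → Vec n) : (fun z => refl α (refl α (u z))) = u := by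
  funext z
  exact sc_refl_refl α (u z)

theorem colK_down_simple {Q : RootD n → Prop} (hQ : QSys Q) {α : RootD n} (hα : SimpQ Q α)
    (u v : Vec n → Vec n) (h : DownQ Q u v) :
    v = (fun z => refl α (u z)) ∨ DownQ Q (fun z => refl α (u z)) (fun z => refl α (v z)) := by
  obtain ⟨β, hβQ, hβp, hβn, rfl⟩ := h
  by_cases e : β.vec = α.vec
  · left
    funext z
    exact sc_refl_congr β α e _
  · right
    refine ⟨reflRoot α β, hQ.refl α β hα.1 hβQ, colK_simple_perm hQ hα hβQ hβp e, ?_, ?_⟩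
    · rw [sc_reflRoot_vec, sc_dot_refl_refl]
      exact hβn
    · funext z
      exact colK2_conj α β (u z)

theorem colK2_wf_down {Q : RootD n → Prop} (u v : Vec n → Vec n) (hu : IsWf u) (h : DownQ Q u v) :
    IsWf v := by
  obtain ⟨β, _, _, _, rfl⟩ := h
  exact colF_wf_refl β u hu

theorem colK2_wf_ge {Q : RootD n → Prop} (u v : Vec n → Vec n) (hu : IsWf u) (h : GeQ Q u v) :
    IsWf v := by
  induction h with
  | refl => exact hu
  | tail _ hab ih => exact colK2_wf_down _ _ ih hab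

/-- the step `u → s_α u` at a descent -/
theorem colK2_step {Q : RootD n → Prop} {α : RootD n} (hα : SimpQ Q α) (u : Vec n → Vec n)
    (hd : dot (u (rhoV n)) α.vec < 0) : DownQ Q u (fun z => refl α (u z)) :=
  ⟨α, hα.1, hα.2.1, hd, rfl⟩

/-- the step `s_α u → u` at an ascent -/
theorem colK2_step' {Q : RootD n → Prop} {α : RootD n} (hα : SimpQ Q α) (u : Vec n → Vec n)
    (hd : 0 < dot (u (rhoV n)) α.vec) : DownQ Q (fun z => refl α (u z)) u :=
  ⟨α, hα.1, hα.2.1, by show dot (refl α (u (rhoV n))) α.vec < 0; rw [colK2_dot_s]; linarith,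
    (colK2_ss α u).symm⟩

open Classical in
/-- the `α`-negative element of `{u, s_α u}` -/
noncomputable def colK2max (α : RootD n) (u : Vec n → Vec n) : Vec n → Vec n :=
  if dot (u (rhoV n)) α.vec < 0 then u else fun z => refl α (u z)

open Classical in
/-- the `α`-positive element of `{u, s_α u}` -/
noncomputable def colK2min (α : RootD n) (u : Vec n → Vec n) : Vec n → Vec n :=
  if dot (u (rhoV n)) α.vec < 0 then (fun z => refl α (u z)) else u

theorem colK2max_s (α : RootD n) (u : Vec n → Vec n) (hu : IsWf u) :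
    colK2max α (fun z => refl α (u z)) = colK2max α u := by
  have hne := pl_frame_rho_ne u hu α
  unfold colK2max
  have e : dot (refl α (u (rhoV n))) α.vec = - dot (u (rhoV n)) α.vec := colK2_dot_s α _
  by_cases h : dot (u (rhoV n)) α.vec < 0
  · rw [if_pos h, if_neg (by rw [e]; linarith), colK2_ss]
  · have h' : 0 < dot (u (rhoV n)) α.vec := lt_of_le_of_ne (not_lt.1 h) hne.symm
    rw [if_neg h, if_pos (by rw [e]; linarith)]

theorem colK2min_s (α : RootD n) (u : Vec n → Vec n) (hu : IsWf u) :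
    colK2min α (fun z => refl α (u z)) = colK2min α u := by
  have hne := pl_frame_rho_ne u hu α
  unfold colK2min
  have e : dot (refl α (u (rhoV n))) α.vec = - dot (u (rhoV n)) α.vec := colK2_dot_s α _
  by_cases h : dot (u (rhoV n)) α.vec < 0
  · rw [if_pos h, if_neg (by rw [e]; linarith)]
  · have h' : 0 < dot (u (rhoV n)) α.vec := lt_of_le_of_ne (not_lt.1 h) hne.symm
    rw [if_neg h, if_pos (by rw [e]; linarith), colK2_ss]

theorem colK2_ge_max {Q : RootD n → Prop} (hQ : QSys Q) {α : RootD n} (hα : SimpQ Q α)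
    (u v : Vec n → Vec n) (hu : IsWf u) (h : GeQ Q u v) : GeQ Q (colK2max α u) (colK2max α v) := by
  induction h with
  | refl => exact Relation.ReflTransGen.refl
  | @tail v w huv hvw ih =>
    refine ih.trans ?_
    have hv : IsWf v := colK2_wf_ge u v hu huv
    have hw : IsWf w := colK2_wf_down v w hv hvw
    rcases colK_down_simple hQ hα v w hvw with e | hl
    · rw [e, colK2max_s α v hv]
    · have nv := pl_frame_rho_ne v hv α
      have nw := pl_frame_rho_ne w hw α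
      unfold colK2max
      by_cases h1 : dot (v (rhoV n)) α.vec < 0 <;> by_cases h2 : dot (w (rhoV n)) α.vec < 0
      · rw [if_pos h1, if_pos h2]
        exact Relation.ReflTransGen.single hvw
      · rw [if_pos h1, if_neg h2]
        exact (Relation.ReflTransGen.single (colK2_step hα v h1)).tail hl
      · rw [if_neg h1, if_pos h2]
        exact (Relation.ReflTransGen.single
          (colK2_step' hα v (lt_of_le_of_ne (not_lt.1 h1) nv.symm))).tail hvw
      · rw [if_neg h1, if_neg h2]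
        exact Relation.ReflTransGen.single hl

theorem colK2_ge_min {Q : RootD n → Prop} (hQ : QSys Q) {α : RootD n} (hα : SimpQ Q α)
    (u v : Vec n → Vec n) (hu : IsWf u) (h : GeQ Q u v) : GeQ Q (colK2min α u) (colK2min α v) := by
  induction h with
  | refl => exact Relation.ReflTransGen.refl
  | @tail v w huv hvw ih =>
    refine ih.trans ?_
    have hv : IsWf v := colK2_wf_ge u v hu huv
    have hw : IsWf w := colK2_wf_down v w hv hvw
    rcases colK_down_simple hQ hα v w hvw with e | hl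
    · rw [e, colK2min_s α v hv]
    · have nv := pl_frame_rho_ne v hv α
      have nw := pl_frame_rho_ne w hw α
      unfold colK2min
      by_cases h1 : dot (v (rhoV n)) α.vec < 0 <;> by_cases h2 : dot (w (rhoV n)) α.vec < 0
      · rw [if_pos h1, if_pos h2]
        exact Relation.ReflTransGen.single hl
      · rw [if_pos h1, if_neg h2]
        exact (Relation.ReflTransGen.single hl).tail
          (colK2_step' hα w (lt_of_le_of_ne (not_lt.1 h2) nw.symm))
      · rw [if_neg h1, if_pos h2]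
        exact (Relation.ReflTransGen.single hvw).tail (colK2_step hα w h2)
      · rw [if_neg h1, if_neg h2]
        exact Relation.ReflTransGen.single hvw

/-- `u ≥ v`, `s u < u` ⇒ `u ≥ s v` -/
theorem colK_lift_max {Q : RootD n → Prop} (hQ : QSys Q) {α : RootD n} (hα : SimpQ Q α)
    (u v : Vec n → Vec n) (hu : IsWf u) (h : GeQ Q u v) (hd : dot (u (rhoV n)) α.vec < 0) :
    GeQ Q u (fun z => refl α (v z)) := by
  have h1 := colK2_ge_max hQ hα u v hu h
  unfold colK2max at h1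
  rw [if_pos hd] at h1
  by_cases h2 : dot (v (rhoV n)) α.vec < 0
  · rw [if_pos h2] at h1
    exact h1.tail (colK2_step hα v h2)
  · rw [if_neg h2] at h1
    exact h1

/-- `u ≥ v`, `s u < u`, `s v < v` ⇒ `s u ≥ s v` -/
theorem colK_lift_min {Q : RootD n → Prop} (hQ : QSys Q) {α : RootD n} (hα : SimpQ Q α)
    (u v : Vec n → Vec n) (hu : IsWf u) (h : GeQ Q u v) (hd : dot (u (rhoV n)) α.vec < 0)
    (hd' : dot (v (rhoV n)) α.vec < 0) : GeQ Q (fun z => refl α (u z)) (fun z => refl α (v z)) := by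
  have h1 := colK2_ge_min hQ hα u v hu h
  unfold colK2min at h1
  rw [if_pos hd, if_pos hd'] at h1
  exact h1

theorem colK_wf_ge {Q : RootD n → Prop} (u v : Vec n → Vec n) (hu : IsWf u) (h : GeQ Q u v) : IsWf v := by
  exact colK2_wf_ge u v hu h

/-! ## (K3) products of reflections -/

theorem colK_refl_wf (M : List (RootD n)) (u : Vec n → Vec n) (hu : IsWf u) : IsWf (colRefl M u) := by
  induction M generalizing u with
  | nil => exact hu
  | cons γ M ih => exact ih _ (colF_wf_refl γ u hu)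

/-- `s_{s_α γ} s_α = s_α s_γ` -/
theorem colK_refl_reflRoot (α γ : RootD n) (y : Vec n) :
    refl (reflRoot α γ) (refl α y) = refl α (refl γ y) := by
  have h := sc_refl_map (WB.ofRoot α) γ y
  rw [sc_ofRoot_act, sc_ofRoot_act] at h
  exact h

/-- `s_α (∏ s_γ) u = (∏ s_{s_α γ}) s_α u` -/
theorem colK_refl_conj (α : RootD n) (M : List (RootD n)) (u : Vec n → Vec n) :
    colRefl (M.map (reflRoot α)) (fun z => refl α (u z)) = fun z => refl α (colRefl M u z) := by
  induction M generalizing u with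
  | nil => rfl
  | cons γ M ih =>
    rw [List.map_cons]
    show colRefl (M.map (reflRoot α)) (fun x => refl (reflRoot α γ) (refl α (u x))) =
      fun z => refl α (colRefl M (fun x => refl γ (u x)) z)
    rw [← ih]
    congr 1
    funext x
    exact colK_refl_reflRoot α γ (u x)

/-- if `α ⊥ M` then `s_α` commutes with `∏ s_γ` -/
theorem colK_refl_comm (α : RootD n) (M : List (RootD n)) (h : ∀ γ ∈ M, dot α.vec γ.vec = 0)
    (u : Vec n → Vec n) : colRefl M (fun z => refl α (u z)) = fun z => refl α (colRefl M u z) := by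
  induction M generalizing u with
  | nil => rfl
  | cons γ M ih =>
    show colRefl M (fun x => refl γ (refl α (u x))) =
      fun z => refl α (colRefl M (fun x => refl γ (u x)) z)
    rw [← ih (fun γ' hγ' => h γ' (List.mem_cons_of_mem _ hγ'))]
    congr 1
    funext x
    exact (sc_refl_comm α γ (h γ List.mem_cons_self) (u x)).symm

theorem colK_refl_perm (M M' : List (RootD n)) (hp : M.Perm M')
    (ho : M.Pairwise (fun γ γ' => dot γ.vec γ'.vec = 0)) (u : Vec n → Vec n) :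
    colRefl M u = colRefl M' u := by
  induction hp generalizing u with
  | nil => rfl
  | cons γ _ ih => exact ih (List.pairwise_cons.1 ho).2 _
  | swap γ γ' l =>
    show colRefl l (fun x => refl γ (refl γ' (u x))) = colRefl l (fun x => refl γ' (refl γ (u x)))
    congr 1
    funext x
    exact (sc_refl_comm γ' γ ((List.pairwise_cons.1 ho).1 γ List.mem_cons_self) (u x)).symm
  | trans h₁ _ ih₁ ih₂ =>
    have hs : ∀ {a b : RootD n}, dot a.vec b.vec = 0 → dot b.vec a.vec = 0 := fun {a b} h => by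
      rw [dot_comm, h]
    rw [ih₁ ho, ih₂ ((h₁.pairwise_iff hs).1 ho)]

/-- value on a vector with all pairings `-2` -/
theorem colK_refl_val (M : List (RootD n)) (ho : M.Pairwise (fun γ γ' => dot γ.vec γ'.vec = 0))
    (u : Vec n → Vec n) (ω : Vec n) (hm : ∀ γ ∈ M, dot (u ω) γ.vec = -2) :
    colRefl M u ω = u ω + (2 : ℝ) • (M.map RootD.vec).sum := by
  induction M generalizing u with
  | nil => simp [colRefl]
  | cons γ M ih =>
    have ho' := List.pairwise_cons.1 ho
    show colRefl M (fun x => refl γ (u x)) ω = _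
    rw [ih ho'.2 (fun x => refl γ (u x)) ?_]
    · rw [List.map_cons, List.sum_cons, refl, hm γ List.mem_cons_self, smul_add, neg_smul]
      abel
    · intro γ' hγ'
      show dot (refl γ (u ω)) γ'.vec = -2
      rw [refl, dot_sub_left, dot_smul_left, ho'.1 γ' hγ', mul_zero, sub_zero,
        hm γ' (List.mem_cons_of_mem _ hγ')]

/-- `⟨(∏ s_γ) u r, α⟩ = ⟨u r, α⟩` if `α ⊥ M` -/
theorem colK_refl_dot (α : RootD n) (M : List (RootD n)) (h : ∀ γ ∈ M, dot α.vec γ.vec = 0)
    (u : Vec n → Vec n) (r : Vec n) : dot (colRefl M u r) α.vec = dot (u r) α.vec := by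
  induction M generalizing u with
  | nil => rfl
  | cons γ M ih =>
    show dot (colRefl M (fun x => refl γ (u x)) r) α.vec = _
    rw [ih (fun γ' hγ' => h γ' (List.mem_cons_of_mem _ hγ'))]
    show dot (refl γ (u r)) α.vec = _
    rw [refl, dot_sub_left, dot_smul_left, dot_comm γ.vec, h γ List.mem_cons_self, mul_zero, sub_zero]

theorem colK_ev_refl {Q : RootD n → Prop} (hQ : QSys Q) (α : RootD n) (hα : Q α) (a : Vec n)
    (h : EvQ Q a) : EvQ Q (refl α a) := by
  intro β hβ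
  rw [sc_dot_refl_left, ← sc_reflRoot_vec]
  exact h _ (hQ.refl α β hα hβ)

/-! ## (K4) the easy steps.  `sx = s_α x`, `sy = s_α y`. -/

/-- `⟨x ω, α⟩ = 0`: the same witness.  (`x → s_α x` is a `DownQ` step; `s_α x ω = x ω`) -/
theorem colK_T1 {Q : RootD n → Prop} {α : RootD n} (hα : SimpQ Q α) (ω : Vec n)
    (x y x'' : Vec n → Vec n) (M : List (RootD n)) (hxα : dot (x (rhoV n)) α.vec < 0)
    (hp : dot (x ω) α.vec = 0) (W : CLWit Q ω (fun z => refl α (x z)) y x'' M) :
    CLWit Q ω x y x'' M := by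
  refine ⟨W.wf, Relation.ReflTransGen.head ⟨α, hα.1, hα.2.1, hxα, rfl⟩ W.ge, ?_, W.mem, W.orth,
    W.ge', W.same'⟩
  rw [W.same]
  exact sc_refl_of_orth α _ hp

/-- `y'' ≥ s y`, `s y'' < y''` ⇒ `y'' ≥ y` (`colK_lift_max`, `s s y = y`); `⟨y ω, α⟩ ≤ 0` and `⟨y'' ω, α⟩ = - ⟨y ω, α⟩ ≤ 0` (`pl_frame_nonpos`), so `s y ω = y ω`. -/
theorem colK_T2 {Q : RootD n → Prop} (hQ : QSys Q) {α : RootD n} (hα : SimpQ Q α) (ω : Vec n)
    (hω : Dom ω) (x₁ y x'' : Vec n → Vec n) (M : List (RootD n)) (hy : IsWf y)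
    (hyα : dot (y (rhoV n)) α.vec < 0) (W : CLWit Q ω x₁ (fun z => refl α (y z)) x'' M)
    (he : dot (colRefl M x'' (rhoV n)) α.vec < 0) : CLWit Q ω x₁ y x'' M := by
  have hwf : IsWf (colRefl M x'') := colK_refl_wf M x'' W.wf
  refine ⟨W.wf, W.ge, W.same, W.mem, W.orth, ?_, ?_⟩
  · have := colK_lift_max hQ hα _ _ hwf W.ge' he
    simpa only [sc_refl_refl] using this
  · have h1 : dot (y ω) α.vec ≤ 0 := pl_frame_nonpos y hy α hyα ω hω
    have h2 : dot (colRefl M x'' ω) α.vec ≤ 0 := pl_frame_nonpos _ hwf α he ω hω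
    have h3 : colRefl M x'' ω = refl α (y ω) := W.same'
    rw [h3, sc_dot_refl_left, sc_refl_self, sc_dot_neg_right] at h2
    rw [h3]
    exact sc_refl_of_orth α _ (le_antisymm h1 (by linarith))

/-- conjugation by `s = s_α`: witness `(s x'', s M)`.  `α ∉ M` since `⟨x'' ω, α⟩ = - ⟨x ω, α⟩ ≥ 0 ≠ -2`; so `s γ > 0` (`colK_simple_perm`).  `x ≥ s x''` by `colK_lift_max` (`x → s x ≥ x''`).
`colRefl (s M) (s x'') = s y''` (`colK_refl_conj`); `s y'' → y'' ≥ s y` and `colK_lift_max` give `s y'' ≥ y`. -/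
theorem colK_T3 {Q : RootD n → Prop} (hQ : QSys Q) {α : RootD n} (hα : SimpQ Q α) (ω : Vec n)
    (hω : Dom ω) (x y x'' : Vec n → Vec n) (M : List (RootD n)) (hx : IsWf x)
    (hxα : dot (x (rhoV n)) α.vec < 0)
    (W : CLWit Q ω (fun z => refl α (x z)) (fun z => refl α (y z)) x'' M)
    (he : 0 < dot (colRefl M x'' (rhoV n)) α.vec) :
    CLWit Q ω x y (fun z => refl α (x'' z)) (M.map (reflRoot α)) := by
  have hwf : IsWf (colRefl M x'') := colK_refl_wf M x'' W.wf
  have hsame : x'' ω = refl α (x ω) := W.same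
  have hsame' : colRefl M x'' ω = refl α (y ω) := W.same'
  have hxx : GeQ Q x x'' := Relation.ReflTransGen.head ⟨α, hα.1, hα.2.1, hxα, rfl⟩ W.ge
  refine ⟨colF_wf_refl α x'' W.wf, colK_lift_max hQ hα x x'' hx hxx hxα, ?_, ?_, ?_, ?_, ?_⟩
  · show refl α (x'' ω) = x ω
    rw [hsame, sc_refl_refl]
  · intro γ hγ
    obtain ⟨γ₀, hγ₀, rfl⟩ := List.mem_map.1 hγ
    obtain ⟨hq, hpos, hm⟩ := W.mem γ₀ hγ₀
    refine ⟨hQ.refl α γ₀ hα.1 hq, colK_simple_perm hQ hα hq hpos ?_, ?_⟩
    · intro e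
      have h1 : dot (x ω) α.vec ≤ 0 := pl_frame_nonpos x hx α hxα ω hω
      rw [e, hsame, sc_dot_refl_left, sc_refl_self, sc_dot_neg_right] at hm
      linarith
    · show dot (refl α (x'' ω)) (reflRoot α γ₀).vec = -2
      rw [sc_reflRoot_vec, sc_dot_refl_refl, hm]
  · rw [List.pairwise_map]
    refine W.orth.imp ?_
    intro a b hab
    rw [sc_reflRoot_vec, sc_reflRoot_vec, sc_dot_refl_refl, hab]
  · rw [colK_refl_conj]
    have hneg : dot (refl α (colRefl M x'' (rhoV n))) α.vec < 0 := by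
      rw [sc_dot_refl_left, sc_refl_self, sc_dot_neg_right]
      linarith
    have hstep : DownQ Q (fun z => refl α (colRefl M x'' z)) (colRefl M x'') :=
      ⟨α, hα.1, hα.2.1, hneg, by funext z; rw [sc_refl_refl]⟩
    have := colK_lift_max hQ hα _ _ (colF_wf_refl α _ hwf)
      (Relation.ReflTransGen.head hstep W.ge') hneg
    simpa only [sc_refl_refl] using this
  · rw [colK_refl_conj]
    show refl α (colRefl M x'' ω) = y ω
    rw [hsame', sc_refl_refl]

/-! ## (K5) the steps with `⟨x ω, α⟩ = -2` -/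

/-- common part of (K5): `x ≥ s_α x''` -/
theorem colK5_ge {Q : RootD n → Prop} (hQ : QSys Q) {α : RootD n} (hα : SimpQ Q α)
    (x x'' : Vec n → Vec n) (hx : IsWf x) (hxα : dot (x (rhoV n)) α.vec < 0)
    (h : GeQ Q (fun z => refl α (x z)) x'') : GeQ Q x (fun z => refl α (x'' z)) :=
  colK_lift_max hQ hα x x'' hx (Relation.ReflTransGen.head ⟨α, hα.1, hα.2.1, hxα, rfl⟩ h) hxα

theorem colK5_dot (α γ : RootD n) (v : Vec n) :
    dot (refl α v) γ.vec = dot v γ.vec - dot v α.vec * dot α.vec γ.vec := by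
  unfold refl
  rw [sc_dot_sub_left, sc_dot_smul_left]

theorem colK5_eps (α γ₁ : RootD n) (h1 : dot α.vec γ₁.vec = -1) :
    (reflRoot α γ₁).vec = γ₁.vec + α.vec := by
  rw [sc_reflRoot_vec]
  unfold refl
  rw [sc_dot_comm, h1]
  simp

/-- `s_ε s_{γ₁} s_α = s_{γ₁}` -/
theorem colK5_braid (α γ₁ : RootD n) (h1 : dot α.vec γ₁.vec = -1) (v : Vec n) :
    refl (reflRoot α γ₁) (refl γ₁ (refl α v)) = refl γ₁ v := by
  have h2 : dot γ₁.vec α.vec = -1 := by rw [sc_dot_comm, h1]
  unfold refl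
  rw [colK5_eps α γ₁ h1]
  simp only [sc_dot_sub_left, sc_dot_smul_left, sc_dot_add_right, sc_vec_dot_self, h1, h2]
  ext i
  simp only [Pi.sub_apply, Pi.smul_apply, Pi.add_apply, smul_eq_mul]
  ring

/-- `s_ε s_α = s_α s_{γ₁}` -/
theorem colK5_braid2 (α γ₁ : RootD n) (h1 : dot α.vec γ₁.vec = -1) (v : Vec n) :
    refl (reflRoot α γ₁) (refl α v) = refl α (refl γ₁ v) := by
  have h2 : dot γ₁.vec α.vec = -1 := by rw [sc_dot_comm, h1]
  unfold refl
  rw [colK5_eps α γ₁ h1]
  simp only [sc_dot_sub_left, sc_dot_smul_left, sc_dot_add_right, sc_vec_dot_self, h1, h2]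
  ext i
  simp only [Pi.sub_apply, Pi.smul_apply, Pi.add_apply, smul_eq_mul]
  ring

/-- `α ⊥ M`: witness `(s x'', α :: M)`; `colRefl (α :: M) (s x'') = colRefl M x''`. -/
theorem colK_T4 {Q : RootD n → Prop} (hQ : QSys Q) {α : RootD n} (hα : SimpQ Q α) (ω : Vec n)
    (x y x'' : Vec n → Vec n) (M : List (RootD n)) (hx : IsWf x) (hxα : dot (x (rhoV n)) α.vec < 0)
    (hp : dot (x ω) α.vec = -2) (W : CLWit Q ω (fun z => refl α (x z)) y x'' M)
    (h0 : ∀ γ ∈ M, dot α.vec γ.vec = 0) :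
    CLWit Q ω x y (fun z => refl α (x'' z)) (α :: M) := by
  have hω : refl α (x'' ω) = x ω := by
    rw [W.same]
    exact sc_refl_refl α _
  have hc : colRefl (α :: M) (fun z => refl α (x'' z)) = colRefl M x'' := by
    show colRefl M (fun z => refl α (refl α (x'' z))) = _
    congr 1
    funext z
    exact sc_refl_refl α _
  refine ⟨colF_wf_refl α x'' W.wf, colK5_ge hQ hα x x'' hx hxα W.ge, hω, ?_, ?_, ?_, ?_⟩
  · intro γ hγ
    show Q γ ∧ γ.Pos ∧ dot (refl α (x'' ω)) γ.vec = -2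
    rcases List.mem_cons.1 hγ with h | hγ
    · rw [h, hω]
      exact ⟨hα.1, hα.2.1, hp⟩
    · obtain ⟨a, b, c'⟩ := W.mem γ hγ
      refine ⟨a, b, ?_⟩
      rw [colK5_dot, h0 γ hγ, mul_zero, sub_zero, c']
  · exact List.pairwise_cons.2 ⟨h0, W.orth⟩
  · rw [hc]
    exact W.ge'
  · rw [hc]
    exact W.same'

/-- `⟨α, γ₁⟩ = -1`, `ε = s_α γ₁ = α + γ₁`, `x̂ = s_α x''`, `s_{γ₁} x̂ < x̂`: witness `(s_{γ₁} x̂, ε :: M₀)`.
`s_ε s_{γ₁} = s_{γ₁} s_α`, so `colRefl (ε :: M₀) (s_{γ₁} x̂) = colRefl (γ₁ :: M₀) x''`.  `⟨x ω, γ₁⟩ = 0`, `⟨x ω, ε⟩ = -2`. -/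
theorem colK_T5a {Q : RootD n → Prop} (hQ : QSys Q) {α : RootD n} (hα : SimpQ Q α) (ω : Vec n)
    (x y x'' : Vec n → Vec n) (γ₁ : RootD n) (M₀ : List (RootD n)) (hx : IsWf x)
    (hxα : dot (x (rhoV n)) α.vec < 0) (hp : dot (x ω) α.vec = -2)
    (W : CLWit Q ω (fun z => refl α (x z)) y x'' (γ₁ :: M₀)) (h1 : dot α.vec γ₁.vec = -1)
    (h0 : ∀ γ ∈ M₀, dot α.vec γ.vec = 0) (hg : dot (refl α (x'' (rhoV n))) γ₁.vec < 0) :
    CLWit Q ω x y (fun z => refl γ₁ (refl α (x'' z))) (reflRoot α γ₁ :: M₀) := by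
  obtain ⟨hQ1, hP1, hm1⟩ := W.mem γ₁ List.mem_cons_self
  have hx'' : x'' ω = refl α (x ω) := W.same
  have hω : refl α (x'' ω) = x ω := by
    rw [hx'']
    exact sc_refl_refl α _
  have hg0 : dot (x ω) γ₁.vec = 0 := by
    rw [hx'', colK5_dot, hp, h1] at hm1
    linarith
  have hω2 : refl γ₁ (refl α (x'' ω)) = x ω := by
    rw [hω]
    exact sc_refl_of_orth γ₁ _ hg0
  have hε := colK5_eps α γ₁ h1
  have hc : colRefl (reflRoot α γ₁ :: M₀) (fun z => refl γ₁ (refl α (x'' z))) =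
      colRefl (γ₁ :: M₀) x'' := by
    show colRefl M₀ (fun z => refl (reflRoot α γ₁) (refl γ₁ (refl α (x'' z)))) =
      colRefl M₀ (fun z => refl γ₁ (x'' z))
    congr 1
    funext z
    exact colK5_braid α γ₁ h1 _
  have hne : γ₁.vec ≠ α.vec := by
    intro h
    rw [h, sc_vec_dot_self] at h1
    norm_num at h1
  have horth := List.pairwise_cons.1 W.orth
  refine ⟨colF_wf_refl γ₁ _ (colF_wf_refl α x'' W.wf),
    (colK5_ge hQ hα x x'' hx hxα W.ge).tail ⟨γ₁, hQ1, hP1, hg, rfl⟩, hω2, ?_, ?_, ?_, ?_⟩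
  · intro γ hγ
    show Q γ ∧ γ.Pos ∧ dot (refl γ₁ (refl α (x'' ω))) γ.vec = -2
    rw [hω2]
    rcases List.mem_cons.1 hγ with h | hγ
    · rw [h]
      refine ⟨hQ.refl α γ₁ hα.1 hQ1, colK_simple_perm hQ hα hQ1 hP1 hne, ?_⟩
      rw [hε, sc_dot_add_right, hg0, hp]
      norm_num
    · obtain ⟨a, b, c'⟩ := W.mem γ (List.mem_cons_of_mem _ hγ)
      refine ⟨a, b, ?_⟩
      rw [hx'', colK5_dot, h0 γ hγ, mul_zero, sub_zero] at c'
      exact c'
  · refine List.pairwise_cons.2 ⟨fun γ hγ => ?_, horth.2⟩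
    rw [hε, sc_dot_add_left, horth.1 γ hγ, h0 γ hγ, add_zero]
  · rw [hc]
    exact W.ge'
  · rw [hc]
    exact W.same'

/-- same situation, `s_{γ₁} x̂ > x̂`: witness `(x̂, ε :: M₀)`.  `s_{γ₁} s_α = s_α s_ε`, so `y'' = s_α y'`, `y' = colRefl (ε :: M₀) x̂`; `⟨y'' ρ, α⟩ = ⟨x̂ ρ, γ₁⟩ > 0`, so `y' → y''` is a `DownQ` step;
`⟨y'' ω, α⟩ = ⟨x'' ω, α⟩ + 2 ⟨γ₁, α⟩ = 2 - 2 = 0` (`colK_refl_val`), so `y' ω = y'' ω`. -/
theorem colK_T5b {Q : RootD n → Prop} (hQ : QSys Q) {α : RootD n} (hα : SimpQ Q α) (ω : Vec n)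
    (x y x'' : Vec n → Vec n) (γ₁ : RootD n) (M₀ : List (RootD n)) (hx : IsWf x)
    (hxα : dot (x (rhoV n)) α.vec < 0) (hp : dot (x ω) α.vec = -2)
    (W : CLWit Q ω (fun z => refl α (x z)) y x'' (γ₁ :: M₀)) (h1 : dot α.vec γ₁.vec = -1)
    (h0 : ∀ γ ∈ M₀, dot α.vec γ.vec = 0) (hg : 0 < dot (refl α (x'' (rhoV n))) γ₁.vec) :
    CLWit Q ω x y (fun z => refl α (x'' z)) (reflRoot α γ₁ :: M₀) := by
  obtain ⟨hQ1, hP1, hm1⟩ := W.mem γ₁ List.mem_cons_self
  have hx'' : x'' ω = refl α (x ω) := W.same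
  have hω : refl α (x'' ω) = x ω := by
    rw [hx'']
    exact sc_refl_refl α _
  have hg0 : dot (x ω) γ₁.vec = 0 := by
    rw [hx'', colK5_dot, hp, h1] at hm1
    linarith
  have hε := colK5_eps α γ₁ h1
  have hc : colRefl (reflRoot α γ₁ :: M₀) (fun z => refl α (x'' z)) =
      fun z => refl α (colRefl (γ₁ :: M₀) x'' z) := by
    show colRefl M₀ (fun z => refl (reflRoot α γ₁) (refl α (x'' z))) =
      fun z => refl α (colRefl M₀ (fun z => refl γ₁ (x'' z)) z)
    rw [← colK_refl_comm α M₀ h0]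
    congr 1
    funext z
    exact colK5_braid2 α γ₁ h1 _
  have hd : ∀ r, dot (colRefl (γ₁ :: M₀) x'' r) α.vec = dot (refl α (x'' r)) γ₁.vec := by
    intro r
    show dot (colRefl M₀ (fun z => refl γ₁ (x'' z)) r) α.vec = _
    rw [colK_refl_dot α M₀ h0, colK5_dot, colK5_dot, h1, sc_dot_comm γ₁.vec α.vec, h1]
    ring
  have hne : γ₁.vec ≠ α.vec := by
    intro h
    rw [h, sc_vec_dot_self] at h1
    norm_num at h1
  have horth := List.pairwise_cons.1 W.orth
  refine ⟨colF_wf_refl α x'' W.wf, colK5_ge hQ hα x x'' hx hxα W.ge, hω, ?_, ?_, ?_, ?_⟩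
  · intro γ hγ
    show Q γ ∧ γ.Pos ∧ dot (refl α (x'' ω)) γ.vec = -2
    rw [hω]
    rcases List.mem_cons.1 hγ with h | hγ
    · rw [h]
      refine ⟨hQ.refl α γ₁ hα.1 hQ1, colK_simple_perm hQ hα hQ1 hP1 hne, ?_⟩
      rw [hε, sc_dot_add_right, hg0, hp]
      norm_num
    · obtain ⟨a, b, c'⟩ := W.mem γ (List.mem_cons_of_mem _ hγ)
      refine ⟨a, b, ?_⟩
      rw [hx'', colK5_dot, h0 γ hγ, mul_zero, sub_zero] at c'
      exact c'
  · refine List.pairwise_cons.2 ⟨fun γ hγ => ?_, horth.2⟩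
    rw [hε, sc_dot_add_left, horth.1 γ hγ, h0 γ hγ, add_zero]
  · rw [hc]
    refine Relation.ReflTransGen.head ⟨α, hα.1, hα.2.1, ?_, ?_⟩ W.ge'
    · show dot (refl α (colRefl (γ₁ :: M₀) x'' (rhoV n))) α.vec < 0
      rw [colK5_dot, sc_vec_dot_self, hd]
      linarith
    · funext z
      exact (sc_refl_refl α _).symm
  · rw [hc]
    show refl α (colRefl (γ₁ :: M₀) x'' ω) = y ω
    rw [sc_refl_of_orth α _ (by rw [hd, hω, hg0])]
    exact W.same'

/-! ## (K6) bookkeeping -/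

theorem colK_T6 {Q : RootD n → Prop} (ω : Vec n) (x y x' : Vec n → Vec n) (M M' : List (RootD n))
    (hp : M.Perm M') (W : CLWit Q ω x y x' M) : CLWit Q ω x y x' M' := by
  have hs : ∀ {a b : RootD n}, dot a.vec b.vec = 0 → dot b.vec a.vec = 0 := fun {a b} h => by
    rw [dot_comm, h]
  have he := colK_refl_perm M M' hp W.orth x'
  exact ⟨W.wf, W.ge, W.same, fun γ hγ => W.mem γ (hp.mem_iff.2 hγ), (hp.pairwise_iff hs).1 W.orth,
    he ▸ W.ge', he ▸ W.same'⟩

/-- `-2 = ⟨x'' ω, γ⟩ = ⟨x ω, γ⟩ + 2 ⟨α, γ⟩`, `⟨x ω, γ⟩ ∈ {0, ±2}`; `⟨α, γ⟩ = -2` is impossible for two positive roots. -/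
theorem colK_T7 {Q : RootD n → Prop} {α : RootD n} (hα : SimpQ Q α) (ω : Vec n)
    (x y x'' : Vec n → Vec n) (M : List (RootD n)) (hE : EvQ Q (x ω)) (hp : dot (x ω) α.vec = -2)
    (W : CLWit Q ω (fun z => refl α (x z)) y x'' M) :
    ∀ γ ∈ M, dot α.vec γ.vec = 0 ∨ dot α.vec γ.vec = -1 := by
  intro γ hγ
  obtain ⟨hQγ, hpos, h2⟩ := W.mem γ hγ
  have hsame : x'' ω = refl α (x ω) := W.same
  rw [hsame, refl, hp, dot_sub_left, dot_smul_left] at h2
  rcases hE γ hQγ with h | h | h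
  · right; linarith
  · exfalso
    have h3 : dot α.vec γ.opp.vec = 2 := by
      rw [sc_neg_vec, dot_neg_right]; linarith
    have h4 := sc_vec_dot_vec_two α γ.opp h3
    rw [sc_neg_vec] at h4
    have h5 : 0 < dot γ.vec (rhoV n) := hpos
    have h6 : 0 < dot α.vec (rhoV n) := hα.2.1
    rw [← h4, dot_neg_left] at h6
    linarith
  · left; linarith

/-- pairing of a list sum -/
theorem colK_dot_list_sum (α : RootD n) (M : List (RootD n)) :
    dot (M.map RootD.vec).sum α.vec = (M.map fun γ => dot α.vec γ.vec).sum := by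
  induction M with
  | nil => simp [dot_zero_left]
  | cons γ M ih =>
    rw [List.map_cons, List.sum_cons, List.map_cons, List.sum_cons, dot_add_left, ih, dot_comm γ.vec]

theorem colK_T8 {Q : RootD n → Prop} {α : RootD n} (ω : Vec n) (x y x'' : Vec n → Vec n)
    (M : List (RootD n)) (hp : dot (x ω) α.vec = -2)
    (W : CLWit Q ω (fun z => refl α (x z)) y x'' M) :
    dot (colRefl M x'' ω) α.vec = 2 + 2 * (M.map fun γ => dot α.vec γ.vec).sum := by
  have hsame : x'' ω = refl α (x ω) := W.same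
  rw [colK_refl_val M W.orth x'' ω (fun γ hγ => (W.mem γ hγ).2.2), dot_add_left, dot_smul_left,
    colK_dot_list_sum, hsame, sc_dot_refl_left, sc_refl_self, dot_neg_right, hp]
  norm_num

/-- numbers in `{0, -1}` with sum `≥ 0` all vanish -/
theorem colK_T9_aux (α : RootD n) (M : List (RootD n))
    (h : ∀ γ ∈ M, dot α.vec γ.vec = 0 ∨ dot α.vec γ.vec = -1) :
    (M.map fun γ => dot α.vec γ.vec).sum ≤ 0 ∧
      (0 ≤ (M.map fun γ => dot α.vec γ.vec).sum → ∀ γ ∈ M, dot α.vec γ.vec = 0) := by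
  induction M with
  | nil => simp
  | cons γ M ih =>
    obtain ⟨ih1, ih2⟩ := ih (fun γ' hγ' => h γ' (List.mem_cons_of_mem _ hγ'))
    rw [List.map_cons, List.sum_cons]
    rcases h γ List.mem_cons_self with h0 | h0
    · rw [h0, zero_add]
      refine ⟨ih1, fun hs γ' hγ' => ?_⟩
      rcases List.mem_cons.1 hγ' with rfl | hγ'
      · exact h0
      · exact ih2 hs γ' hγ'
    · rw [h0]
      exact ⟨by linarith, fun hs => by linarith⟩

/-- a list of numbers in `{0, -1}` with sum `≥ -1` -/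
theorem colK_T9 (α : RootD n) (M : List (RootD n))
    (h : ∀ γ ∈ M, dot α.vec γ.vec = 0 ∨ dot α.vec γ.vec = -1)
    (hs : 0 ≤ 2 + 2 * (M.map fun γ => dot α.vec γ.vec).sum) :
    (∀ γ ∈ M, dot α.vec γ.vec = 0) ∨
      ∃ (γ₁ : RootD n) (M₀ : List (RootD n)), M.Perm (γ₁ :: M₀) ∧ dot α.vec γ₁.vec = -1 ∧
        ∀ γ ∈ M₀, dot α.vec γ.vec = 0 := by
  induction M with
  | nil => left; simp
  | cons γ M ih =>
    have h' : ∀ γ' ∈ M, dot α.vec γ'.vec = 0 ∨ dot α.vec γ'.vec = -1 :=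
      fun γ' hγ' => h γ' (List.mem_cons_of_mem _ hγ')
    rw [List.map_cons, List.sum_cons] at hs
    rcases h γ List.mem_cons_self with h0 | h0
    · rw [h0, zero_add] at hs
      rcases ih h' hs with h1 | ⟨γ₁, M₀, hp, h1, h2⟩
      · left
        intro γ' hγ'
        rcases List.mem_cons.1 hγ' with rfl | hγ'
        · exact h0
        · exact h1 γ' hγ'
      · right
        refine ⟨γ₁, γ :: M₀, (hp.cons γ).trans (List.Perm.swap γ₁ γ M₀), h1, fun γ' hγ' => ?_⟩
        rcases List.mem_cons.1 hγ' with rfl | hγ'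
        · exact h0
        · exact h2 γ' hγ'
    · right
      rw [h0] at hs
      exact ⟨γ, M, List.Perm.refl _, h0, (colK_T9_aux α M h').2 (by linarith)⟩

/-! ## (K7) the concrete subsystem `D_S × D_{S^c}`, `S` = support of `a` -/

/-- both axes in the support of `a`, or both outside -/
def QS (a : Vec n) (β : RootD n) : Prop := a β.i = 0 ↔ a β.j = 0

theorem colK7_sgn_ne (b : Bool) : sgnB b ≠ 0 := by
  cases b <;> simp [sgnB]

theorem colK7_vec_ne (β : RootD n) (k : Fin n) : β.vec k ≠ 0 ↔ k = β.i ∨ k = β.j := by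
  constructor
  · intro h
    by_contra hc
    push Not at hc
    exact h (scw_vec_other β hc.1 hc.2)
  · rintro (rfl | rfl)
    · rw [scw_vec_i]; exact colK7_sgn_ne _
    · rw [scw_vec_j]; exact colK7_sgn_ne _

theorem colK7_swap_zero (a : Vec n) (α : RootD n) (hα : QS a α) (k : Fin n) :
    a (Equiv.swap α.i α.j k) = 0 ↔ a k = 0 := by
  by_cases hi : k = α.i
  · subst hi
    rw [Equiv.swap_apply_left]
    exact hα.symm
  · by_cases hj : k = α.j
    · subst hj
      rw [Equiv.swap_apply_right]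
      exact hα
    · rw [Equiv.swap_apply_of_ne_of_ne hi hj]

/-- (`reflRoot α β = β.map (WB.ofRoot α)` moves the axes by `Equiv.swap α.i α.j`; equal vectors have the same pair of axes) -/
theorem colK_U1 (a : Vec n) : QSys (QS a) := by
  constructor
  · intro α β hα hβ
    show a (Equiv.swap α.i α.j β.i) = 0 ↔ a (Equiv.swap α.i α.j β.j) = 0
    rw [colK7_swap_zero a α hα, colK7_swap_zero a α hα]
    exact hβ
  · intro α β h hα
    have h1 : β.i = α.i ∨ β.i = α.j := by
      rw [← colK7_vec_ne, h, colK7_vec_ne]; exact Or.inl rfl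
    have h2 : β.j = α.i ∨ β.j = α.j := by
      rw [← colK7_vec_ne, h, colK7_vec_ne]; exact Or.inr rfl
    have h3 := β.ne
    unfold QS at hα ⊢
    rcases h1 with h1 | h1 <;> rcases h2 with h2 | h2
    · exact absurd (h1.trans h2.symm) h3
    · rw [h1, h2]; exact hα
    · rw [h1, h2]; exact hα.symm
    · exact absurd (h1.trans h2.symm) h3

/-- entries of `f ω` -/
theorem colK_U2 (k : Fin n) (hk : IsExt n k) (f : Vec n → Vec n) (hf : IsWf f) (i : Fin n) :
    f (fundV n k) i = 0 ∨ f (fundV n k) i = 1 ∨ f (fundV n k) i = -1 := by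
  obtain ⟨w, rfl⟩ := hf
  simp only [WD.act, fundV, if_pos hk.2]
  rcases sc_sgnB_cases (w.s i) with h | h <;> rw [h] <;> split_ifs <;> simp

theorem colK_U3 (a : Vec n) (ha : ∀ i, a i = 0 ∨ a i = 1 ∨ a i = -1) : EvQ (QS a) a := by
  intro β hβ
  rw [sc_dot_vec]
  unfold QS at hβ
  rcases sc_sgnB_cases β.si with h1 | h1 <;> rcases sc_sgnB_cases β.sj with h2 | h2 <;>
    rcases ha β.i with h3 | h3 | h3 <;> rcases ha β.j with h4 | h4 | h4 <;>
    rw [h1, h2, h3, h4] <;> rw [h3, h4] at hβ <;> (try norm_num at hβ) <;> (try norm_num)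

theorem colK7_QS_of_pair (b : Vec n) (hb : ∀ i, b i = 0 ∨ b i = 1 ∨ b i = -1) (β : RootD n)
    (h : dot b β.vec = 0 ∨ dot b β.vec = -2) : QS b β := by
  rw [sc_dot_vec] at h
  unfold QS
  rcases sc_sgnB_cases β.si with h1 | h1 <;> rcases sc_sgnB_cases β.sj with h2 | h2 <;>
    rcases hb β.i with h3 | h3 | h3 <;> rcases hb β.j with h4 | h4 | h4 <;>
    rw [h1, h2, h3, h4] at h <;> rw [h3, h4] <;> (try norm_num at h) <;> (try norm_num)

theorem colK7_refl_zero (b : Vec n) (β : RootD n) (hβ : QS b β) (k : Fin n) :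
    refl β b k = 0 ↔ b k = 0 := by
  rw [← sc_ofRoot_act]
  simp only [WB.act, WB.ofRoot, Equiv.symm_swap, mul_eq_zero]
  rw [colK7_swap_zero b β hβ]
  constructor
  · rintro (h | h)
    · exact absurd h (colK7_sgn_ne _)
    · exact h
  · exact Or.inr

theorem colK7_QS_congr (a b : Vec n) (h : ∀ i, b i = 0 ↔ a i = 0) (β : RootD n) (hβ : QS b β) :
    QS a β := by
  unfold QS at hβ ⊢
  rw [← h, ← h]
  exact hβ

theorem colK7_chain (k : Fin n) (hk : IsExt n k) (a : Vec n) (g u : Vec n → Vec n)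
    (hug : Relation.ReflTransGen (DownExt (fundV n k)) u g) :
    IsWf u → (∀ i, u (fundV n k) i = 0 ↔ a i = 0) → GeQ (QS a) u g := by
  induction hug using Relation.ReflTransGen.head_induction_on with
  | refl => exact fun _ _ => Relation.ReflTransGen.refl
  | @head u v h _ ih =>
    intro hu hz
    obtain ⟨β, hp, hneg, hpair, rfl⟩ := h
    have hQ : QS (u (fundV n k)) β := colK7_QS_of_pair _ (colK_U2 k hk u hu) β hpair
    refine Relation.ReflTransGen.head ⟨β, colK7_QS_congr _ _ hz β hQ, hp, hneg, rfl⟩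
      (ih (colF_wf_refl β u hu) fun i => ?_)
    rw [colK7_refl_zero _ β hQ, hz]

/-- head induction; invariant: `u ω` and `a` have the same zeros.  A root with pairing `0` or `-2` with a vector with entries in `{0, ±1}` has both axes in the support or both outside; `refl β` then preserves the zero pattern. -/
theorem colK_U4 (k : Fin n) (hk : IsExt n k) (f g : Vec n → Vec n) (hf : IsWf f)
    (hfg : Relation.ReflTransGen (DownExt (fundV n k)) f g) : GeQ (QS (f (fundV n k))) f g :=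
  colK7_chain k hk _ g f hfg hf fun _ => Iff.rfl

theorem colK_U5 (Q : RootD n → Prop) (u v : Vec n → Vec n) (h : GeQ Q u v) : BGe Ty.D u v := by
  refine Relation.ReflTransGen.mono ?_ u v h
  rintro f g ⟨β, _, hp, hneg, rfl⟩
  exact ⟨β, trivial, hp, hneg, rfl⟩

theorem colK7_pair_two (a : Vec n) (ha : ∀ i, a i = 0 ∨ a i = 1 ∨ a i = -1) (γ : RootD n)
    (h : dot a γ.vec = -2) : sgnB γ.si = - a γ.i ∧ sgnB γ.sj = - a γ.j := by
  rw [sc_dot_vec] at h
  rcases sc_sgnB_cases γ.si with h1 | h1 <;> rcases sc_sgnB_cases γ.sj with h2 | h2 <;>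
    rcases ha γ.i with h3 | h3 | h3 <;> rcases ha γ.j with h4 | h4 | h4 <;>
    rw [h1, h2, h3, h4] at h <;> rw [h1, h2, h3, h4] <;> (try norm_num at h) <;> (try norm_num)

theorem colK7_vec_eq (a : Vec n) (ha : ∀ i, a i = 0 ∨ a i = 1 ∨ a i = -1) (γ : RootD n)
    (h : dot a γ.vec = -2) (k : Fin n) : γ.vec k = if k = γ.i ∨ k = γ.j then - a k else 0 := by
  obtain ⟨h1, h2⟩ := colK7_pair_two a ha γ h
  by_cases hi : k = γ.i
  · subst hi
    rw [scw_vec_i, if_pos (Or.inl rfl), h1]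
  · by_cases hj : k = γ.j
    · subst hj
      rw [scw_vec_j, if_pos (Or.inr rfl), h2]
    · rw [scw_vec_other γ hi hj, if_neg (by tauto)]

/-- orthogonal roots with pairing `-2` with a vector with entries in `{0, ±1}` have disjoint supports (`γ = - a_i e_i - a_j e_j`) -/
theorem colK_U6 (a : Vec n) (ha : ∀ i, a i = 0 ∨ a i = 1 ∨ a i = -1) (γ γ' : RootD n)
    (h : dot a γ.vec = -2) (h' : dot a γ'.vec = -2) (ho : dot γ.vec γ'.vec = 0) : γ.Disj γ' := by
  obtain ⟨h1, h2⟩ := colK7_pair_two a ha γ' h'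
  have e1 := sc_sgnB_mul_self γ'.si
  have e2 := sc_sgnB_mul_self γ'.sj
  rw [sc_dot_vec, colK7_vec_eq a ha γ h, colK7_vec_eq a ha γ h] at ho
  rw [← h1, ← h2] at ho
  unfold RootD.Disj
  by_cases c1 : γ'.i = γ.i ∨ γ'.i = γ.j <;> by_cases c2 : γ'.j = γ.i ∨ γ'.j = γ.j
  · rw [if_pos c1, if_pos c2, e1, e2] at ho; norm_num at ho
  · rw [if_pos c1, if_neg c2, e1] at ho; norm_num at ho
  · rw [if_neg c1, if_pos c2, e2] at ho; norm_num at ho
  · push Not at c1 c2
    exact ⟨c1.1.symm, c2.1.symm, c1.2.symm, c2.2.symm⟩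

end Claimed.Agent.R282
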