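import Claimed.Agent.R282.Col.R.Extr
import Claimed.Agent.R282.Col.Small

/-!
# Row 282, Col, layer (R), LEAF L-COL-DX : extremal case of Lemma 2.3 (~350 lines)

`colR_extr`: `h = halfV Hh`, `θ = halfV Th`, `h + f θ = halfV Hh'` (`colD_half`; `col_wt_add_act` for the lattice); models from `rep_exists`; `y` from `colX_exists`; `φ b = star y ⬝ᵥ b`.
`rep_coeff`: (hsupp) `wt_orth` (`halfV (Hh' - Hh) = f θ` by `halfV_sub`); (hkill) `colD_adj`: `star y ⬝ᵥ f_i^N b = ± star (e_i^N y) ⬝ᵥ b`, and `e_i^N y = 0` for `N = cwt Hh i + 1` (`colD_pow_kill`).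
Value at `b = y`: `star y ⬝ᵥ y ≠ 0`.  `colProd R₂ [] y = y` by `rfl`.
`colD_pow_kill`: `(f ρ)·α_i ≠ 0` (`pl_frame_rho_ne`).  `> 0`: `colX_kill`.  `< 0`: `colX_step` gives `m`, `⟨f θ, α_i⟩ = - m`, `e^(m+1) y = 0`; `0 ≤ ⟨h + f θ, α_i⟩` (dominance, `simpleRD_pos`, `colF_root_sign`), so `m ≤ ⟨h, α_i⟩ = cwt Hh i` (`colD_cwt`);
`e^N = e^(N - m - 1) e^(m+1)`.
-/

set_option autoImplicit false

namespace Claimed.Agent.R282

open Claims.C0456 Matrix

variable {n : ℕ}
variable {ι : Type} [Fintype ι] [DecidableEq ι]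

/-- dominant weights are halves of dominant doubled weights -/
theorem colD_half (x : Vec n) (hd : Dom x) (hw : IsWtD x) :
    ∃ L : Fin n → ℤ, IsDominantWeight2 L ∧ x = halfV L := by
  rcases hw with hw | hw
  · choose z hz using hw
    refine ⟨fun i => 2 * z i, ⟨fun i j => ⟨z i - z j, by ring⟩, fun i j hij => ?_⟩, ?_⟩
    · have h1 := abs_le.1 (hd i j hij)
      rw [hz i, hz j] at h1
      have h2 : -(z i) ≤ z j := by exact_mod_cast h1.1
      have h3 : z j ≤ z i := by exact_mod_cast h1.2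
      exact abs_le.2 ⟨by linarith, by linarith⟩
    · funext i
      unfold halfV
      rw [hz i]
      push_cast
      ring
  · choose z hz using hw
    refine ⟨fun i => 2 * z i + 1, ⟨fun i j => ⟨z i - z j, by ring⟩, fun i j hij => ?_⟩, ?_⟩
    · have h1 := abs_le.1 (hd i j hij)
      rw [hz i, hz j] at h1
      have h2 : (-(z i) - 1 : ℝ) ≤ z j := by linarith [h1.1]
      have h2' : -(z i) - 1 ≤ z j := by exact_mod_cast h2
      have h3 : (z j : ℝ) ≤ z i := by linarith [h1.2]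
      have h3' : z j ≤ z i := by exact_mod_cast h3
      exact abs_le.2 ⟨by linarith, by linarith⟩
    · funext i
      unfold halfV
      rw [hz i]
      push_cast
      ring

/-- `cwt L i = ⟨L/2, α_i⟩` -/
theorem colD_cwt (hn : 2 ≤ n) (L : Fin n → ℤ) (hL : IsDominantWeight2 L) (i : Fin n) :
    ((cwt L i : ℕ) : ℝ) = dot (halfV L) (simpleRD hn i).vec :=
  (cwt_spec hn L hL i).symm

/-- adjoint of a power of a root vector -/
theorem colD_adj (R : StarRep Ty.D n ι) (β : RootD n) (N : ℕ) (a b : ι → ℂ) :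
    star a ⬝ᵥ ((R.op (rootVec β.neg)) ^ N) b = (-1 : ℂ) ^ N * (star (((R.op (rootVec β)) ^ N) a) ⬝ᵥ b) := by
  induction N generalizing a b with
  | zero => simp
  | succ k ih =>
    rw [pow_succ', Module.End.mul_apply]
    have h1 := op_adjoint R (rootVec β) (isRootVec_rootVec β).1 a (((R.op (rootVec β.neg)) ^ k) b)
    rw [rootVec_conjTranspose, rir_op_neg, dotProduct_neg] at h1
    rw [← neg_eq_iff_eq_neg] at h1
    rw [← h1, ih, ← Module.End.mul_apply, ← pow_succ]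
    ring

/-- dominant vectors pair nonnegatively with the simple roots -/
theorem colD_dom_simple (hn : 2 ≤ n) (y : Vec n) (hy : Dom y) (i : Fin n) :
    0 ≤ dot y (simpleRD hn i).vec := by
  rw [sc_dot_vec]
  unfold simpleRD
  split_ifs with h
  · have h2 := abs_le.1 (hy i ⟨i + 1, h⟩ (by rw [Fin.lt_def]; simp))
    simp only [sgnB]
    simp
    linarith [h2.2]
  · have h2 := abs_le.1 (hy ⟨n - 2, by omega⟩ ⟨n - 1, by omega⟩ (by rw [Fin.lt_def]; simp; omega))
    simp only [sgnB]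
    simp
    linarith [h2.1]

/-- powers of a root vector preserve invariant subspaces -/
theorem colD_pow_mem (R : StarRep Ty.D n ι) (S : Submodule ℂ (ι → ℂ)) (hS : R.Inv S) (β : RootD n)
    (a : ι → ℂ) (ha : a ∈ S) (k : ℕ) : ((R.op (rootVec β)) ^ k) a ∈ S := by
  induction k with
  | zero => simpa using ha
  | succ k ih =>
    rw [pow_succ', Module.End.mul_apply]
    exact hS _ (isRootVec_rootVec β).1 _ ih

/-- upward strings through an extremal weight (norm argument) -/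
theorem colD_string_kill (hn : 2 ≤ n) (R : StarRep Ty.D n ι) (v : ι → ℂ) (θ : Vec n)
    (hv : IsHW R v θ) (f : Vec n → Vec n) (hf : IsWf f) (y : ι → ℂ) (hy : ColExtr R v θ f y)
    (β : RootD n) (k : ℕ) (hk : 0 < k) (hk' : - dot (f θ) β.vec < k) :
    ((R.op (rootVec β)) ^ k) y = 0 := by
  by_contra hne
  have h3 := colX1_norm hn R v θ hv _ (colX1_mult_ne R _ _ _
    (colD_pow_mem R _ (cyc_inv R v) β y hy.2.1 k) (colX_pow_wt R β _ y hy.2.2 k) hne)
  rw [sc_dot_add_left, sc_dot_add_right, sc_dot_add_right, sc_dot_smul_left, sc_dot_smul_left,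
    sc_dot_smul_right, sc_dot_smul_right, (colF_wf_lin f hf).2.2, sc_vec_dot_self,
    sc_dot_comm β.vec (f θ)] at h3
  have hk0 : (0 : ℝ) < k := by exact_mod_cast hk
  nlinarith

theorem colD_pow_kill (hn : 2 ≤ n) (R : StarRep Ty.D n ι) (v : ι → ℂ) (θ : Vec n) (hv : IsHW R v θ)
    (f : Vec n → Vec n) (hf : IsWf f) (y : ι → ℂ) (hy : ColExtr R v θ f y) (L : Fin n → ℤ)
    (hL : IsDominantWeight2 L) (hd : Dom (halfV L + f θ)) (i : Fin n) :
    ((R.op (rootVec (simpleRD hn i))) ^ (cwt L i + 1)) y = 0 := by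
  apply colD_string_kill hn R v θ hv f hf y hy _ _ (Nat.succ_pos _)
  have h1 := colD_dom_simple hn _ hd i
  rw [sc_dot_add_left, cwt_spec hn L hL i] at h1
  push_cast
  linarith

/-- extremal case of Lemma 2.3 -/
theorem colR_extr (hn : 2 ≤ n) (h θ : Vec n) (hd : Dom h) (hw : IsWtD h) (hθ : Dom θ)
    (hθw : IsWtD θ) (f : Vec n → Vec n) (hf : IsWf f) (hd' : Dom (h + f θ)) :
    DemDatum h θ (h + f θ) f [] := by
  have hw' := col_wt_add_act h θ hw hθw f hf
  obtain ⟨Hh, hHh, rfl⟩ := colD_half h hd hw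
  obtain ⟨Th, hTh, rfl⟩ := colD_half θ hθ hθw
  obtain ⟨Hh', hHh', e'⟩ := colD_half _ hd' hw'
  obtain ⟨m₁, R₁, v₁, h₁⟩ := rep_exists Hh hHh
  obtain ⟨m₂, R₂, v₂, h₂⟩ := rep_exists Th hTh
  obtain ⟨m₃, R₃, v₃, h₃⟩ := rep_exists Hh' hHh'
  obtain ⟨y, hy⟩ := colX_exists hn R₂ v₂ _ h₂ f hf
  have ediff : halfV (Hh' - Hh) = f (halfV Th) := by
    rw [halfV_sub, ← e']; simp
  let φ : (Fin m₂ → ℂ) →ₗ[ℂ] ℂ :=
    { toFun := fun x => star y ⬝ᵥ x
      map_add' := fun a c => dotProduct_add _ a c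
      map_smul' := fun c a => by simp [dotProduct_smul] }
  obtain ⟨T, hT, hTφ⟩ := rep_coeff hn Hh Th Hh' R₁ R₂ R₃ v₁ v₂ v₃ h₁ h₂ h₃ φ
    (by
      intro χ hχ x hx
      rw [ediff] at hχ
      exact wt_orth R₂ _ χ (Ne.symm hχ) y x hy.2.2 hx.2)
    (by
      intro i x _
      show star y ⬝ᵥ _ = 0
      rw [colD_adj, colD_pow_kill hn R₂ v₂ _ h₂ f hf y hy Hh hHh hd' i]
      simp)
  refine ⟨m₁, m₃, Fin m₂, inferInstance, inferInstance, R₁, R₂, R₃, T, v₁, v₂, v₃, y, hT, h₁, h₂,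
    by rw [e']; exact h₃, hy, ?_⟩
  show star v₃ ⬝ᵥ T v₁ y ≠ 0
  rw [hTφ y hy.2.1]
  show star y ⬝ᵥ y ≠ 0
  rw [Ne, star_dot_self_eq_zero]
  exact hy.1

end Claimed.Agent.R282
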