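import Claimed.Agent.R282.Col.Iface
import Claimed.Agent.R282.Rep.Iface

/-!
# Row 282, Sec. 5, layer (R): definitions (LIE-ALGEBRAIC version: no group elements, no flags, no limits)

A "flag with past `f`" of the paper is replaced by the DEMAZURE SUBSPACE `colDem R y` generated from an
extremal vector `y` of weight `f μ` by the positive root vectors:
`∃ g, g B ∈ U⁺ f B, φ (g v) ≠ 0`  is the same as  `φ ≠ 0` on `colDem R y`.

* `ColExtr R v θ f y` : `y ≠ 0` lies in `cyc v` and has the extremal weight `f θ`.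
* `colProd R M y`     : `(∏_{γ ∈ M} e_γ) y`.
* `colRefl M f`       : `(∏_{γ ∈ M} s_γ) f`.
* `ColNice f M`       : `M` = positive roots with pairwise disjoint supports, all downward at `f`.
* `DemDatum h θ h' f M` : an intertwiner `V(h) ⊗ V(θ) → V(h')` whose highest-to-highest coefficient does
  not vanish at `(∏_{γ ∈ M} e_γ) y_{f θ}`.
* `DemOcc h μ ξ f` : an intertwiner `V(h) ⊗ V(μ) → V(ξ)` whose highest-to-highest coefficient does not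
  vanish on the Demazure subspace of `y_{f μ}`.
-/

set_option autoImplicit false

namespace Claimed.Agent.R282

open Matrix

variable {n : ℕ}

section
variable {ι : Type} [Fintype ι] [DecidableEq ι]

/-- the subspace generated from `y` by the positive root vectors -/
def colDem (R : StarRep Ty.D n ι) (y : ι → ℂ) : Submodule ℂ (ι → ℂ) :=
  sInf {S | y ∈ S ∧ ∀ β : RootD n, β.Pos → ∀ a ∈ S, R.op (rootVec β) a ∈ S}

/-- extremal vectors -/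
def ColExtr (R : StarRep Ty.D n ι) (v : ι → ℂ) (θ : Vec n) (f : Vec n → Vec n) (y : ι → ℂ) : Prop :=
  y ≠ 0 ∧ y ∈ R.cyc v ∧ y ∈ R.wt (f θ)

/-- `colProd R [γ₁, …, γ_r] a = e_{γ_r} ⋯ e_{γ₁} a` -/
noncomputable def colProd (R : StarRep Ty.D n ι) : List (RootD n) → (ι → ℂ) → (ι → ℂ)
  | [], a => a
  | γ :: M, a => colProd R M (R.op (rootVec γ) a)

end

/-- `colRefl [γ₁, …, γ_r] f = s_{γ_r} ⋯ s_{γ₁} f` -/
def colRefl : List (RootD n) → (Vec n → Vec n) → (Vec n → Vec n)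
  | [], f => f
  | γ :: M, f => colRefl M (fun x => refl γ (f x))

/-- stores the equation lemmas of the recursive definitions in the defining module -/
theorem colRDefs_forced_eqns : True := by
  have := @colProd.eq_def
  have := @colProd.eq_1
  have := @colProd.eq_2
  have := @colRefl.eq_def
  have := @colRefl.eq_1
  have := @colRefl.eq_2
  trivial

/-- disjoint supports -/
def RootD.Disj (γ γ' : RootD n) : Prop := γ.i ≠ γ'.i ∧ γ.i ≠ γ'.j ∧ γ.j ≠ γ'.i ∧ γ.j ≠ γ'.j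

/-- positive roots with pairwise disjoint supports, all downward at the state `f` -/
def ColNice (f : Vec n → Vec n) (M : List (RootD n)) : Prop :=
  (∀ γ ∈ M, γ.Pos ∧ dot (f (rhoV n)) γ.vec < 0) ∧ M.Pairwise RootD.Disj

/-- one column -/
def DemDatum (h θ h' : Vec n) (f : Vec n → Vec n) (M : List (RootD n)) : Prop :=
  ∃ (m₁ m₃ : ℕ) (ι₂ : Type) (_ : Fintype ι₂) (_ : DecidableEq ι₂)
    (R₁ : StarRep Ty.D n (Fin m₁)) (R₂ : StarRep Ty.D n ι₂) (R₃ : StarRep Ty.D n (Fin m₃))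
    (T : (Fin m₁ → ℂ) →ₗ[ℂ] (ι₂ → ℂ) →ₗ[ℂ] (Fin m₃ → ℂ))
    (v₁ : Fin m₁ → ℂ) (v₂ : ι₂ → ℂ) (v₃ : Fin m₃ → ℂ) (y : ι₂ → ℂ),
    RepEquivar R₁ R₂ R₃ T ∧ IsHW R₁ v₁ h ∧ IsHW R₂ v₂ θ ∧ IsHW R₃ v₃ h' ∧ ColExtr R₂ v₂ θ f y ∧
      star v₃ ⬝ᵥ T v₁ (colProd R₂ M y) ≠ 0

/-- occurrence, witnessed on the Demazure subspace of the state `f` -/
def DemOcc (h μ ξ : Vec n) (f : Vec n → Vec n) : Prop :=
  ∃ (m₁ m₃ : ℕ) (ι₂ : Type) (_ : Fintype ι₂) (_ : DecidableEq ι₂)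
    (R₁ : StarRep Ty.D n (Fin m₁)) (R₂ : StarRep Ty.D n ι₂) (R₃ : StarRep Ty.D n (Fin m₃))
    (T : (Fin m₁ → ℂ) →ₗ[ℂ] (ι₂ → ℂ) →ₗ[ℂ] (Fin m₃ → ℂ))
    (v₁ : Fin m₁ → ℂ) (v₂ : ι₂ → ℂ) (v₃ : Fin m₃ → ℂ) (y : ι₂ → ℂ),
    RepEquivar R₁ R₂ R₃ T ∧ IsHW R₁ v₁ h ∧ IsHW R₂ v₂ μ ∧ IsHW R₃ v₃ ξ ∧ ColExtr R₂ v₂ μ f y ∧
      ∃ x ∈ colDem R₂ y, star v₃ ⬝ᵥ T v₁ x ≠ 0

end Claimed.Agent.R282
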