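import Claimed.Agent.R282.Col.R.Extr

/-!
# Row 282, Col, layer (R): monotonicity of the Demazure subspaces (glue, no sorry of its own)
-/

set_option autoImplicit false

namespace Claimed.Agent.R282

open Matrix

variable {n : ℕ}

/-- one downward reflection -/
theorem colR_down (hn : 2 ≤ n) (h μ ξ : Vec n) (f g : Vec n → Vec n) (hf : IsWf f)
    (hfg : Down Ty.D f g) (hO : DemOcc h μ ξ g) : DemOcc h μ ξ f := by
  obtain ⟨β, -, hpos, hneg, rfl⟩ := hfg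
  obtain ⟨m₁, m₃, ι₂, i1, i2, R₁, R₂, R₃, T, v₁, v₂, v₃, y, hT, h₁, h₂, h₃, hy, x, hx, hne⟩ := hO
  obtain ⟨y0, hy0⟩ := colX_exists hn R₂ v₂ μ h₂ f hf
  obtain ⟨m, -, -, hstep, -⟩ := colX_step hn R₂ v₂ μ h₂ f hf y0 hy0 β hneg
  obtain ⟨c, -, hc⟩ := colX_unique hn R₂ v₂ μ h₂ _ (colF_wf_refl β f hf) _ y hstep hy
  refine ⟨m₁, m₃, ι₂, i1, i2, R₁, R₂, R₃, T, v₁, v₂, v₃, y0, hT, h₁, h₂, h₃, hy0, x, ?_, hne⟩
  refine colX_dem_le R₂ y (colDem R₂ y0) ?_ (fun γ hγ a ha => colX_dem_op R₂ y0 γ hγ a ha) hx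
  rw [hc]
  exact Submodule.smul_mem _ c (colX_dem_pow R₂ y0 β hpos y0 (colX_mem_dem R₂ y0) m)

end Claimed.Agent.R282
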