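import Claimed.Agent.R282.Col.R.ExtKill

/-!
# Row 282, Col, layer (R), exterior column: the core (helper253, prefix `colp_`)

`colp_core` : the vector `u = (Θᴴ)^r e_δ` (`φ = ⟨u, ·⟩` is the functional `Ψ` of the paper).
-/

set_option autoImplicit false

namespace Claimed.Agent.R282

open Matrix

theorem colp_pow_comm {A : Type} [Ring A] (T X B : A) (h : T * X - X * T = B) (hB : Commute T B)
    (s : ℕ) : T ^ (s + 1) * X = X * T ^ (s + 1) + ((s + 1 : ℕ) : A) * (B * T ^ s) := by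
  have h' : T * X = X * T + B := by rw [← h]; abel
  induction s with
  | zero => simp [h']
  | succ s ih =>
    have hB' : T * B = B * T := hB.eq
    calc T ^ (s + 1 + 1) * X = T * (T ^ (s + 1) * X) := by rw [pow_succ' T (s + 1), mul_assoc]
      _ = T * X * T ^ (s + 1) + ((s + 1 : ℕ) : A) * (T * B * T ^ s) := by
          rw [ih, mul_add, ← mul_assoc, ← mul_assoc, ← mul_assoc, (Nat.cast_commute (s + 1) T).eq.symm,
            mul_assoc, mul_assoc, mul_assoc, mul_assoc]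
      _ = X * T ^ (s + 1 + 1) + ((s + 1 + 1 : ℕ) : A) * (B * T ^ (s + 1)) := by
          rw [h', hB', add_mul, mul_assoc X, ← pow_succ' T (s + 1), mul_assoc B T, ← pow_succ' T s]
          push_cast
          noncomm_ring

variable {n : ℕ} {ι : Type} [Fintype ι] [DecidableEq ι] (C : Car (Ix n) ι)

theorem colp_Th_Io (h : Vec n) (β : RootD n) : Commute (colpTh C h) (colpIo C β) :=
  colp_A2_comm C _ _

/-- `Θ^(s+1) e_β = e_β Θ^(s+1) + (s+1) ⟨β, h⟩ Io_β Θ^s` on vectors -/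
theorem colp_Th_pow_A (h : Vec n) (β : RootD n) (s : ℕ) (z : ι → ℂ) :
    ((colpTh C h) ^ (s + 1)).mulVec ((C.dG (rootVec β)).mulVec z) =
      (C.dG (rootVec β)).mulVec (((colpTh C h) ^ (s + 1)).mulVec z) +
        (((s + 1 : ℕ) : ℂ) * ((dot β.vec h : ℝ) : ℂ)) •
          (colpIo C β).mulVec (((colpTh C h) ^ s).mulVec z) := by
  have h1 := colp_pow_comm (colpTh C h) (C.dG (rootVec β)) _ (colp_Th_A C h β)
    ((colp_Th_Io C h β).smul_right _) s
  rw [Matrix.mulVec_mulVec, h1, Matrix.add_mulVec, ← Matrix.mulVec_mulVec]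
  congr 1
  rw [← Matrix.mulVec_mulVec, ← Matrix.mulVec_mulVec, Matrix.smul_mulVec, mul_smul]
  have e : (((s + 1 : ℕ) : Matrix ι ι ℂ)) = (((s + 1 : ℕ) : ℂ)) • (1 : Matrix ι ι ℂ) := by
    rw [← Matrix.diagonal_one, ← Matrix.diagonal_smul]
    ext i j
    simp [Matrix.diagonal, Matrix.natCast_apply]
  rw [e, Matrix.smul_mulVec, Matrix.one_mulVec]

theorem colp_colProd_cons (γ : RootD n) (M : List (RootD n)) (z : ι → ℂ) :
    colProd C.lamRep (γ :: M) z = colProd C.lamRep M ((C.dG (rootVec γ)).mulVec z) := rfl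

/-- `Θ^r e_{γ_r} ⋯ e_{γ_1} y = κ ∏ ⟨γ, h⟩ e_δ`, `κ = r!` -/
theorem colp_value (h : Vec n) (M : List (RootD n)) : ∀ (t : ℕ) (z : ι → ℂ),
    ((colpTh C h) ^ (t + 1)).mulVec z = 0 →
    ((colpTh C h) ^ (t + 1 + M.length)).mulVec (colProd C.lamRep M z) = 0 ∧
    ∃ κ : ℕ, κ ≠ 0 ∧ ((colpTh C h) ^ (t + M.length)).mulVec (colProd C.lamRep M z) =
      ((κ : ℂ) * (M.map fun γ => ((dot γ.vec h : ℝ) : ℂ)).prod) •
        colpIoL C M (((colpTh C h) ^ t).mulVec z) := by
  induction M with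
  | nil =>
    intro t z hz
    refine ⟨hz, 1, one_ne_zero, ?_⟩
    simp [colProd, colp_IoL_nil]
  | cons γ M ih =>
    intro t z hz
    have hz2 : ((colpTh C h) ^ (t + 1 + 1)).mulVec z = 0 := by
      rw [pow_succ', ← Matrix.mulVec_mulVec, hz, Matrix.mulVec_zero]
    have h1 : ((colpTh C h) ^ (t + 1 + 1)).mulVec ((C.dG (rootVec γ)).mulVec z) = 0 := by
      rw [colp_Th_pow_A, hz2, hz, Matrix.mulVec_zero, Matrix.mulVec_zero, smul_zero, add_zero]
    obtain ⟨i1, κ, hκ, i2⟩ := ih (t + 1) _ h1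
    rw [colp_colProd_cons, List.length_cons]
    refine ⟨?_, κ * (t + 1), Nat.mul_ne_zero hκ (Nat.succ_ne_zero t), ?_⟩
    · have e : t + 1 + (M.length + 1) = t + 1 + 1 + M.length := by ring
      rw [e]; exact i1
    · have e : t + (M.length + 1) = t + 1 + M.length := by ring
      rw [e, i2, colp_Th_pow_A, hz, Matrix.mulVec_zero, zero_add, colp_IoL_smul, colp_IoL_cons,
        smul_smul, List.map_cons, List.prod_cons]
      congr 1
      push_cast
      ring

/-- `Θ` kills vectors of minimal degree -/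
theorem colp_Th_min (h a : Vec n) (y : ι → ℂ) (hw : ColpWt C y a) (hd : ColpDeg C y (∑ i, |a i|)) :
    (colpTh C h).mulVec y = 0 := by
  by_contra hne
  have h1 := colp_W_sum C _ hne a (colp_wt_comm C y a hw _ fun x => colp_Th_H C h x) _
    (colp_deg_A2 C y _ hd (Hc h))
  linarith

/-- CORE of the exterior column -/
theorem colp_core (h a : Vec n) (M : List (RootD n)) (y : ι → ℂ) (hy : y ≠ 0) (hw : ColpWt C y a)
    (hd : ColpDeg C y (∑ i, |a i|)) (hM : ∀ γ ∈ M, dot a γ.vec = -2)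
    (hh : ∀ γ ∈ M, dot h γ.vec ≠ 0) (hp : M.Pairwise (fun γ γ' => dot γ.vec γ'.vec = 0)) :
    ∃ u : ι → ℂ, ColpWt C u (a + (M.map RootD.vec).sum) ∧
      (∀ (α : RootD n) (c : ℕ), dot h α.vec = c → 0 ≤ dot (h + (a + (M.map RootD.vec).sum)) α.vec →
        ((C.dG (rootVec α)) ^ (c + 1)).mulVec u = 0) ∧
      star u ⬝ᵥ colProd C.lamRep M y ≠ 0 := by
  obtain ⟨e0, ew, ed⟩ := colp_IoL_spec C M y a hy hw hd hM hp
  refine ⟨(((colpTh C h)ᴴ) ^ M.length).mulVec (colpIoL C M y), colq_wt C h _ _ ew _,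
    fun α c hc hdom => colq_kill C h _ _ ew ed _ α c hc hdom, ?_⟩
  have hz : ((colpTh C h) ^ (0 + 1)).mulVec y = 0 := by
    rw [zero_add, pow_one]; exact colp_Th_min C h a y hw hd
  obtain ⟨-, κ, hκ, hv⟩ := colp_value C h M 0 y hz
  rw [zero_add, pow_zero, Matrix.one_mulVec] at hv
  rw [← conjTranspose_pow, ← colp_adj, conjTranspose_conjTranspose, hv, dotProduct_smul,
    colp_nrm_eq, smul_eq_mul]
  refine mul_ne_zero (mul_ne_zero (by exact_mod_cast hκ) ?_) ?_
  · apply List.prod_ne_zero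
    intro h0
    obtain ⟨γ, hγ, e⟩ := List.mem_map.1 h0
    apply hh γ hγ
    rw [dot_comm]
    exact_mod_cast e
  · exact_mod_cast (colp_nrm_pos _ e0).ne'

end Claimed.Agent.R282
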