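import Claimed.Agent.R282.Col.R.Extr

/-!
# Row 282, Col, layer (R): leaves of Lemma 2.4 (statements by helper216)

Heights: `ht χ = dot χ (rhoV n)`.  `colAbove R c` = span of the weight vectors of height `> c`.
LEAVES
* L-COL-G1 `colG_above_*`, `colG_tsub_*` (~200 l).
* L-COL-G2 `colG_comm`, `colG_low_pow`, `colG_prod_wt`, `colG_pow_map_*` (~250 l).
* L-COL-G3 `colG_expand` (~300 l): the binomial expansion, see the docstring.
* L-COL-G4 `colG_dem` (~120 l).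
* L-COL-G5 `colG_comp` (~200 l).
* L-COL-G6 `colG_top` (~250 l).
* L-COL-G7 `colG_chain` (~200 l).
-/

set_option autoImplicit false

namespace Claimed.Agent.R282

open Matrix

variable {n : ℕ}
variable {ι ι' ι₁ ι₂ ι₃ ι₁' ι₂' ι₃' : Type} [Fintype ι] [DecidableEq ι] [Fintype ι'] [DecidableEq ι']
  [Fintype ι₁] [DecidableEq ι₁] [Fintype ι₂] [DecidableEq ι₂] [Fintype ι₃] [DecidableEq ι₃]
  [Fintype ι₁'] [DecidableEq ι₁'] [Fintype ι₂'] [DecidableEq ι₂'] [Fintype ι₃'] [DecidableEq ι₃']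

/-- span of the weight vectors of height `> c` -/
noncomputable def colAbove (R : StarRep Ty.D n ι) (c : ℝ) : Submodule ℂ (ι → ℂ) :=
  ⨆ (χ : Vec n) (_ : c < dot χ (rhoV n)), R.wt χ

/-- `colPow R [(γ₁, m₁), …] a = ⋯ e_{γ₂}^{m₂} e_{γ₁}^{m₁} a` -/
noncomputable def colPow (R : StarRep Ty.D n ι) : List (RootD n × ℕ) → (ι → ℂ) → (ι → ℂ)
  | [], a => a
  | p :: M, a => colPow R M (((R.op (rootVec p.1)) ^ p.2) a)

/-- stores the equation lemmas of `colPow` in the defining module -/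
theorem colRGlue_forced_eqns : True := by
  have := @colPow.eq_def
  have := @colPow.eq_1
  have := @colPow.eq_2
  trivial

/-- `b` has weight `κ` and is a lowest weight vector of weight `- m` for each `sl2 (γ)`, `(γ, m) ∈ M` -/
def ColLow (R : StarRep Ty.D n ι) (M : List (RootD n × ℕ)) (κ : Vec n) (b : ι → ℂ) : Prop :=
  b ∈ R.wt κ ∧ ∀ p ∈ M, R.op (rootVec p.1.neg) b = 0 ∧ dot κ p.1.vec = -(p.2 : ℝ)

/-! ## (G1) -/

theorem colG_above_mem (R : StarRep Ty.D n ι) (c : ℝ) (χ : Vec n) (h : c < dot χ (rhoV n)) (a : ι → ℂ)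
    (ha : a ∈ R.wt χ) : a ∈ colAbove R c := by
  unfold colAbove
  exact Submodule.mem_iSup_of_mem χ (Submodule.mem_iSup_of_mem h ha)

theorem colG_above_mono (R : StarRep Ty.D n ι) (c c' : ℝ) (h : c ≤ c') : colAbove R c' ≤ colAbove R c := by
  unfold colAbove
  exact iSup₂_le fun χ hχ => le_iSup₂_of_le χ (h.trans_lt hχ) le_rfl

/-- (`wt_shift`, `iSup` induction) -/
theorem colG_above_op (R : StarRep Ty.D n ι) (c : ℝ) (β : RootD n) (hβ : β.Pos) (a : ι → ℂ)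
    (ha : a ∈ colAbove R c) : R.op (rootVec β) a ∈ colAbove R c := by
  have hle : colAbove R c ≤ (colAbove R c).comap (R.op (rootVec β)) := by
    conv_lhs => unfold colAbove
    refine iSup₂_le fun χ hχ x hx => ?_
    have hβ' : 0 < dot β.vec (rhoV n) := hβ
    exact colG_above_mem R c (χ + β.vec) (by rw [dot_add_left]; linarith) _ (wt_shift R χ β x hx)
  exact hle ha

theorem colG_tsub_mem (S : Submodule ℂ (ι → ℂ)) (S' : Submodule ℂ (ι' → ℂ)) (a : ι → ℂ) (b : ι' → ℂ)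
    (ha : a ∈ S) (hb : b ∈ S') : tmul a b ∈ tsub S S' := by
  exact Submodule.subset_span ⟨a, ha, b, hb, rfl⟩

theorem colG_tsub_mono (S₁ S₂ : Submodule ℂ (ι → ℂ)) (S' : Submodule ℂ (ι' → ℂ)) (h : S₁ ≤ S₂) :
    tsub S₁ S' ≤ tsub S₂ S' := by
  refine Submodule.span_mono ?_
  rintro _ ⟨a, ha, b, hb, rfl⟩
  exact ⟨a, h ha, b, hb, rfl⟩

/-- (`Submodule.span_induction`, `colX_kron_op`, `colG_above_op`) -/
theorem colG_tsub_op (R : StarRep Ty.D n ι) (R' : StarRep Ty.D n ι') (c : ℝ) (β : RootD n) (hβ : β.Pos)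
    (z : ι × ι' → ℂ) (hz : z ∈ tsub (colAbove R c) (⊤ : Submodule ℂ (ι' → ℂ))) :
    (R.kron R').op (rootVec β) z ∈ tsub (colAbove R c) (⊤ : Submodule ℂ (ι' → ℂ)) := by
  have hle : tsub (colAbove R c) (⊤ : Submodule ℂ (ι' → ℂ)) ≤
      (tsub (colAbove R c) (⊤ : Submodule ℂ (ι' → ℂ))).comap ((R.kron R').op (rootVec β)) := by
    refine Submodule.span_le.2 ?_
    rintro _ ⟨a, ha, b, -, rfl⟩
    show (R.kron R').op (rootVec β) (tmul a b) ∈ tsub (colAbove R c) (⊤ : Submodule ℂ (ι' → ℂ))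
    rw [colX_kron_op]
    exact Submodule.add_mem _ (colG_tsub_mem _ _ _ _ (colG_above_op R c β hβ a ha) Submodule.mem_top)
      (colG_tsub_mem _ _ _ _ ha Submodule.mem_top)
  exact hle hz

/-- a linear functional which kills `tmul a b`, `a ∈ S`, kills `tsub S ⊤` -/
theorem colG_tsub_kill (S : Submodule ℂ (ι → ℂ)) (Λ : (ι × ι' → ℂ) →ₗ[ℂ] ℂ)
    (h : ∀ a ∈ S, ∀ b : ι' → ℂ, Λ (tmul a b) = 0) (z : ι × ι' → ℂ)
    (hz : z ∈ tsub S (⊤ : Submodule ℂ (ι' → ℂ))) : Λ z = 0 := by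
  have hle : tsub S (⊤ : Submodule ℂ (ι' → ℂ)) ≤ LinearMap.ker Λ := by
    refine Submodule.span_le.2 ?_
    rintro _ ⟨a, ha, b, -, rfl⟩
    exact h a ha b
  exact hle hz

/-! ## (G2) commuting root vectors -/

theorem colG2_mul_zero (γ γ' : RootD n) (h : γ.Disj γ') : rootVec γ * rootVec γ' = 0 := by
  obtain ⟨h1, h2, h3, h4⟩ := h
  unfold rootVec
  rw [smul_mul_smul_comm]
  simp only [sub_mul, mul_sub, vecMulVec_mul_vecMulVec, rrt_uvec_dot, h1, h2, h3, h4, false_and,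
    if_false, zero_smul, vecMulVec_zero, sub_self, smul_zero]

theorem colG2_disj_symm (γ γ' : RootD n) (h : γ.Disj γ') : γ'.Disj γ :=
  ⟨h.1.symm, h.2.2.1.symm, h.2.1.symm, h.2.2.2.symm⟩

/-- root vectors of roots with disjoint supports commute (matrix computation: `rootVec γ * rootVec γ' = 0` since `uvec i s ⬝ᵥ uvec j t = 0` for `i ≠ j`; then `op_bracket`, `isRootVec_rootVec`) -/
theorem colG_comm (R : StarRep Ty.D n ι) (γ γ' : RootD n) (h : γ.Disj γ') (a : ι → ℂ) :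
    R.op (rootVec γ) (R.op (rootVec γ') a) = R.op (rootVec γ') (R.op (rootVec γ) a) := by
  have e1 := colG2_mul_zero γ γ' h
  have e2 := colG2_mul_zero γ' γ (colG2_disj_symm γ γ' h)
  have h1 := op_bracket R (rootVec γ) (rootVec γ') (isRootVec_rootVec γ).1
    (isRootVec_rootVec γ').1 a
  rw [e1, e2, sub_zero] at h1
  have h0 : R.op 0 a = 0 := by simp [StarRep.op]
  rw [h0] at h1
  exact sub_eq_zero.1 h1.symm

theorem colG_disj_neg (γ γ' : RootD n) (h : γ.Disj γ') : γ.Disj γ'.neg := h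

theorem colG_disj_dot (γ γ' : RootD n) (h : γ.Disj γ') : dot γ.vec γ'.vec = 0 := by
  obtain ⟨h1, h2, h3, h4⟩ := h
  unfold dot
  refine Finset.sum_eq_zero fun k _ => ?_
  unfold RootD.vec
  by_cases a1 : k = γ.i
  · subst a1
    rw [if_neg h1, if_neg h2, add_zero, mul_zero]
  · by_cases a2 : k = γ.j
    · subst a2
      rw [if_neg h3, if_neg h4, add_zero, mul_zero]
    · rw [if_neg a1, if_neg a2, add_zero, zero_mul]

theorem colG2_comm_pow (R : StarRep Ty.D n ι) (γ γ' : RootD n) (h : γ.Disj γ') (j : ℕ) :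
    ∀ a : ι → ℂ, R.op (rootVec γ') (((R.op (rootVec γ)) ^ j) a) =
      ((R.op (rootVec γ)) ^ j) (R.op (rootVec γ') a) := by
  induction j with
  | zero => intro a; simp
  | succ j ih =>
    intro a
    rw [pow_succ, Module.End.mul_apply, Module.End.mul_apply, ih, colG_comm R γ γ' h]

/-- `e_γ^j b` is still low for the other roots -/
theorem colG_low_pow (R : StarRep Ty.D n ι) (γ : RootD n) (M : List (RootD n × ℕ))
    (hd : ∀ p ∈ M, γ.Disj p.1) (κ : Vec n) (b : ι → ℂ) (hb : ColLow R M κ b) (j : ℕ) :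
    ColLow R M (κ + (j : ℝ) • γ.vec) (((R.op (rootVec γ)) ^ j) b) := by
  refine ⟨colX_pow_wt R γ κ b hb.1 j, fun p hp => ⟨?_, ?_⟩⟩
  · rw [colG2_comm_pow R γ p.1.neg (colG_disj_neg γ p.1 (hd p hp)) j, (hb.2 p hp).1, map_zero]
  · rw [dot_add_left, dot_smul_left, colG_disj_dot γ p.1 (hd p hp), mul_zero, add_zero,
      (hb.2 p hp).2]

theorem colG_prod_wt (R : StarRep Ty.D n ι) (M : List (RootD n)) (κ : Vec n) (a : ι → ℂ)
    (ha : a ∈ R.wt κ) : colProd R M a ∈ R.wt (κ + (M.map RootD.vec).sum) := by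
  induction M generalizing κ a with
  | nil => simpa [colProd] using ha
  | cons γ M ih =>
    have := ih (κ + γ.vec) (R.op (rootVec γ) a) (wt_shift R κ γ a ha)
    rw [List.map_cons, List.sum_cons, ← add_assoc]
    exact this

theorem colG_pow_add (R : StarRep Ty.D n ι) (M : List (RootD n × ℕ)) (a b : ι → ℂ) :
    colPow R M (a + b) = colPow R M a + colPow R M b := by
  induction M generalizing a b with
  | nil => rfl
  | cons p M ih =>
    simp only [colPow]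
    rw [map_add, ih]

theorem colG_pow_smul (R : StarRep Ty.D n ι) (M : List (RootD n × ℕ)) (c : ℂ) (a : ι → ℂ) :
    colPow R M (c • a) = c • colPow R M a := by
  induction M generalizing a with
  | nil => rfl
  | cons p M ih =>
    simp only [colPow]
    rw [map_smul, ih]

theorem colG_pow_sum (R : StarRep Ty.D n ι) (M : List (RootD n × ℕ)) {κ : Type} (s : Finset κ)
    (a : κ → ι → ℂ) : colPow R M (∑ k ∈ s, a k) = ∑ k ∈ s, colPow R M (a k) := by
  classical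
  induction s using Finset.induction_on with
  | empty =>
    have := colG_pow_smul R M 0 0
    simpa using this
  | insert k s hk ih =>
    rw [Finset.sum_insert hk, Finset.sum_insert hk, colG_pow_add, ih]

theorem colG_pow_dem (R : StarRep Ty.D n ι) (y : ι → ℂ) (M : List (RootD n × ℕ))
    (hpos : ∀ p ∈ M, p.1.Pos) (a : ι → ℂ) (ha : a ∈ colDem R y) : colPow R M a ∈ colDem R y := by
  induction M generalizing a with
  | nil => exact ha
  | cons p M ih =>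
    exact ih (fun q hq => hpos q (List.mem_cons_of_mem _ hq)) _
      (colX_dem_pow R y p.1 (hpos p (List.mem_cons_self ..)) a ha p.2)

/-! ## (G3) the expansion -/

/-- Induction on `M`, for all `κ κ' a b`.  `M = (γ, m) :: M₁`:
`colPow K ((γ, m+1) :: M₁⁺) (tmul a b) = colPow K M₁⁺ (∑_{k ≤ m+1} choose (m+1) k • tmul (e^k a) (e^(m+1-k) b))` (`colX_kron_pow`); the term `k = 0` vanishes (`colX_sl2`: `e^(m+1) b = 0`).
For `k ≥ 1` apply the induction hypothesis to `e^k a ∈ wt (κ + k γ)` (`colX_pow_wt`) and `e^(m+1-k) b` (`colG_low_pow`):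
`k = 1`: main term `c₁ • tmul (colProd R M₁' (e a)) (colPow R' M₁ (e^m b))`, which is the main term of the claim, `c = (m+1) c₁`; error in `tsub (colAbove R (ht κ + ht γ + ∑_{M₁}))`.
`k ≥ 2`: main term and error lie in `tsub (colAbove R (ht κ + ht γ + ∑_{M₁})) ⊤`: `colProd R M₁' (e^k a)` has height `ht κ + k ht γ + ∑_{M₁} > ht κ + ht γ + ∑_{M₁}` (`colG_prod_wt`, `colG_above_mem`, `colG_above_mono`). -/
theorem colG_expand (R : StarRep Ty.D n ι) (R' : StarRep Ty.D n ι') (M : List (RootD n × ℕ))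
    (hdisj : (M.map Prod.fst).Pairwise RootD.Disj) (hpos : ∀ p ∈ M, p.1.Pos) (κ κ' : Vec n)
    (a : ι → ℂ) (ha : a ∈ R.wt κ) (b : ι' → ℂ) (hb : ColLow R' M κ' b) :
    ∃ c : ℂ, c ≠ 0 ∧
      colPow (R.kron R') (M.map fun p => (p.1, p.2 + 1)) (tmul a b) -
          c • tmul (colProd R (M.map Prod.fst) a) (colPow R' M b) ∈
        tsub (colAbove R (dot (κ + ((M.map Prod.fst).map RootD.vec).sum) (rhoV n)))
          (⊤ : Submodule ℂ (ι' → ℂ)) := by
  induction M generalizing κ κ' a b with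
  | nil =>
    refine ⟨1, one_ne_zero, ?_⟩
    have : colPow (R.kron R') (([] : List (RootD n × ℕ)).map fun p => (p.1, p.2 + 1)) (tmul a b) -
        (1 : ℂ) • tmul (colProd R (([] : List (RootD n × ℕ)).map Prod.fst) a) (colPow R' [] b) = 0 := by
      simp [colPow, colProd]
    rw [this]
    exact Submodule.zero_mem _
  | cons p M₁ ih =>
    obtain ⟨γ, m⟩ := p
    have hγpos : 0 < dot γ.vec (rhoV n) := hpos (γ, m) (List.mem_cons_self)
    have hd1 : ∀ q ∈ M₁, γ.Disj q.1 := by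
      intro q hq
      rw [List.map_cons, List.pairwise_cons] at hdisj
      exact hdisj.1 q.1 (List.mem_map_of_mem hq)
    have hd2 : (M₁.map Prod.fst).Pairwise RootD.Disj := by
      rw [List.map_cons, List.pairwise_cons] at hdisj
      exact hdisj.2
    have hpos1 : ∀ q ∈ M₁, q.1.Pos := fun q hq => hpos q (List.mem_cons_of_mem _ hq)
    have hb1 : ColLow R' M₁ κ' b := ⟨hb.1, fun q hq => hb.2 q (List.mem_cons_of_mem _ hq)⟩
    obtain ⟨hbk, hbm⟩ := hb.2 (γ, m) (List.mem_cons_self)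
    simp only at hbk hbm
    set sg : Vec n := ((M₁.map Prod.fst).map RootD.vec).sum with hsg
    set H : ℝ := dot (κ + (γ.vec + sg)) (rhoV n) with hH
    set K := R.kron R' with hK
    set M₁p := M₁.map fun p => (p.1, p.2 + 1) with hM₁p
    set e := R.op (rootVec γ) with he
    set e' := R'.op (rootVec γ) with he'
    set S := tsub (colAbove R H) (⊤ : Submodule ℂ (ι' → ℂ)) with hS
    -- consequence of the induction hypothesis
    have key : ∀ k j : ℕ, ∃ c : ℂ, c ≠ 0 ∧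
        colPow K M₁p (tmul ((e ^ k) a) ((e' ^ j) b)) -
          c • tmul (colProd R (M₁.map Prod.fst) ((e ^ k) a)) (colPow R' M₁ ((e' ^ j) b)) ∈
        tsub (colAbove R (dot (κ + (k : ℝ) • γ.vec + sg) (rhoV n))) (⊤ : Submodule ℂ (ι' → ℂ)) :=
      fun k j => ih hd2 hpos1 _ _ _ (colX_pow_wt R γ κ a ha k) _
        (colG_low_pow R' γ M₁ hd1 κ' b hb1 j)
    have hht : ∀ k : ℕ, dot (κ + (k : ℝ) • γ.vec + sg) (rhoV n) =
        H + ((k : ℝ) - 1) * dot γ.vec (rhoV n) := by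
      intro k
      rw [hH]
      simp only [sc_dot_add_left, sc_dot_smul_left]
      ring
    -- the terms `k ≥ 2`
    have hbig : ∀ k j : ℕ, 2 ≤ k → colPow K M₁p (tmul ((e ^ k) a) ((e' ^ j) b)) ∈ S := by
      intro k j hk
      obtain ⟨c, -, hc⟩ := key k j
      have hk2 : (2 : ℝ) ≤ (k : ℝ) := by exact_mod_cast hk
      have h1 : H < dot (κ + (k : ℝ) • γ.vec + sg) (rhoV n) := by
        rw [hht k]
        nlinarith
      have h2 := colG_tsub_mono _ _ (⊤ : Submodule ℂ (ι' → ℂ)) (colG_above_mono R _ _ h1.le) hc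
      have h3 : tmul (colProd R (M₁.map Prod.fst) ((e ^ k) a)) (colPow R' M₁ ((e' ^ j) b)) ∈ S :=
        colG_tsub_mem _ _ _ _ (colG_above_mem R H _ h1 _
          (colG_prod_wt R _ _ _ (colX_pow_wt R γ κ a ha k))) Submodule.mem_top
      have := S.add_mem h2 (S.smul_mem c h3)
      rwa [sub_add_cancel] at this
    -- the term `k = 1`
    obtain ⟨c₁, hc₁, hmain⟩ := key 1 m
    have hmain' : colPow K M₁p (tmul ((e ^ 1) a) ((e' ^ m) b)) -
          c₁ • tmul (colProd R (M₁.map Prod.fst) ((e ^ 1) a)) (colPow R' M₁ ((e' ^ m) b)) ∈ S := by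
      have : dot (κ + ((1 : ℕ) : ℝ) • γ.vec + sg) (rhoV n) = H := by
        rw [hht 1]; simp
      rwa [this] at hmain
    -- the term `k = 0`
    have hzero : (e' ^ (m + 1)) b = 0 := (colX_sl2 R' γ κ' b hb.1 hbk m hbm).1
    refine ⟨((m : ℂ) + 1) * c₁, mul_ne_zero (by exact_mod_cast Nat.succ_ne_zero m) hc₁, ?_⟩
    have hsum : ((((γ, m) :: M₁).map Prod.fst).map RootD.vec).sum = γ.vec + sg := by
      simp [hsg]
    rw [hsum]
    have hL : colPow K (((γ, m) :: M₁).map fun p => (p.1, p.2 + 1)) (tmul a b) =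
        ∑ k ∈ Finset.range (m + 1 + 1), ((m + 1).choose k : ℂ) •
          colPow K M₁p (tmul ((e ^ k) a) ((e' ^ (m + 1 - k)) b)) := by
      show colPow K M₁p (((K.op (rootVec γ)) ^ (m + 1)) (tmul a b)) = _
      rw [hK, colX_kron_pow, colG_pow_sum]
      exact Finset.sum_congr rfl fun k _ => colG_pow_smul _ _ _ _
    have hR : tmul (colProd R (((γ, m) :: M₁).map Prod.fst) a) (colPow R' ((γ, m) :: M₁) b) =
        tmul (colProd R (M₁.map Prod.fst) ((e ^ 1) a)) (colPow R' M₁ ((e' ^ m) b)) := by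
      rw [pow_one]
      rfl
    rw [hL, hR, Finset.sum_range_succ', Finset.sum_range_succ']
    have e0 : ((m + 1).choose 0 : ℂ) •
        colPow K M₁p (tmul ((e ^ 0) a) ((e' ^ (m + 1 - 0)) b)) = 0 := by
      rw [Nat.sub_zero, hzero, colX_tmul_zero_right]
      have := colG_pow_smul K M₁p 0 0
      rw [zero_smul, zero_smul] at this
      rw [this, smul_zero]
    rw [e0, add_zero]
    have e1 : ((m + 1).choose (0 + 1) : ℂ) •
        colPow K M₁p (tmul ((e ^ (0 + 1)) a) ((e' ^ (m + 1 - (0 + 1))) b)) =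
        ((m : ℂ) + 1) • colPow K M₁p (tmul ((e ^ 1) a) ((e' ^ m) b)) := by
      simp
    rw [e1, add_sub_assoc, mul_smul, ← smul_sub]
    refine S.add_mem (S.sum_mem fun k _ => S.smul_mem _ (hbig _ _ (by omega))) (S.smul_mem _ hmain')

/-! ## (G4) propagation along the Demazure subspace of the second factor -/

/-- `S = {x | tmul w x ∈ K}`, `K = colDem ⊔ tsub`, is a subspace (`colX_tmul_*`), contains `z`, and is stable under `e_β`, `β > 0`:
`tmul w (e x) = e (tmul w x) - tmul (e w) x`, `e K ≤ K` (`colX_dem_op`, `colG_tsub_op`), `e w ∈ colAbove` (`wt_shift`, `colG_above_mem`).  `colX_dem_le`. -/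
theorem colG_dem (R : StarRep Ty.D n ι) (R' : StarRep Ty.D n ι') (y₀ : ι × ι' → ℂ) (w : ι → ℂ)
    (δ : Vec n) (hw : w ∈ R.wt δ) (z : ι' → ℂ)
    (hz : tmul w z ∈ colDem (R.kron R') y₀ ⊔
      tsub (colAbove R (dot δ (rhoV n))) (⊤ : Submodule ℂ (ι' → ℂ))) :
    ∀ x ∈ colDem R' z, tmul w x ∈ colDem (R.kron R') y₀ ⊔
      tsub (colAbove R (dot δ (rhoV n))) (⊤ : Submodule ℂ (ι' → ℂ)) := by
  set K : Submodule ℂ (ι × ι' → ℂ) := colDem (R.kron R') y₀ ⊔
      tsub (colAbove R (dot δ (rhoV n))) (⊤ : Submodule ℂ (ι' → ℂ)) with hK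
  let L : (ι' → ℂ) →ₗ[ℂ] (ι × ι' → ℂ) :=
    { toFun := tmul w
      map_add' := colX_tmul_add_right w
      map_smul' := fun c b => colX_tmul_smul_right c w b }
  have hKop : ∀ β : RootD n, β.Pos → ∀ k ∈ K, (R.kron R').op (rootVec β) k ∈ K := by
    intro β hβ k hk
    obtain ⟨d, hd, t, ht, rfl⟩ := Submodule.mem_sup.1 hk
    rw [map_add]
    exact Submodule.add_mem _ (Submodule.mem_sup_left (colX_dem_op _ y₀ β hβ d hd))
      (Submodule.mem_sup_right (colG_tsub_op R R' _ β hβ t ht))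
  have hle := colX_dem_le R' z (K.comap L) hz (by
    intro β hβ a ha
    have ha' : tmul w a ∈ K := ha
    show tmul w (R'.op (rootVec β) a) ∈ K
    have e := colX_kron_op R R' (rootVec β) w a
    have e' : tmul w (R'.op (rootVec β) a) =
        (R.kron R').op (rootVec β) (tmul w a) - tmul (R.op (rootVec β) w) a := by
      rw [e]
      abel
    rw [e']
    refine Submodule.sub_mem _ (hKop β hβ _ ha') (Submodule.mem_sup_right ?_)
    refine colG_tsub_mem _ _ _ _ (colG_above_mem R _ (δ + β.vec) ?_ _ (wt_shift R δ β w hw))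
      Submodule.mem_top
    rw [dot_add_left]
    have : 0 < dot β.vec (rhoV n) := hβ
    linarith)
  intro x hx
  exact hle hx

/-! ## (G5) the composite intertwiner -/

omit [Fintype ι] [Fintype ι'] in
theorem colG5_single (p : ι) (p' : ι') :
    (Pi.single (p, p') (1 : ℂ) : ι × ι' → ℂ) = tmul (Pi.single p 1) (Pi.single p' 1) := by
  funext ⟨a, b⟩
  simp only [tmul, Pi.single_apply, Prod.mk.injEq]
  by_cases h1 : a = p <;> by_cases h2 : b = p' <;> simp [h1, h2]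

theorem colG5_sum (b : ι → ℂ) : b = ∑ p, b p • (Pi.single p (1 : ℂ) : ι → ℂ) := by
  funext a
  simp [Finset.sum_apply, Pi.single_apply]

/-- the composite bilinear map -/
noncomputable def colG5C (T : (ι₁ → ℂ) →ₗ[ℂ] (ι₂ → ℂ) →ₗ[ℂ] (ι₃ → ℂ))
    (T' : (ι₁' → ℂ) →ₗ[ℂ] (ι₂' → ℂ) →ₗ[ℂ] (ι₃' → ℂ)) (J : (ι₃ → ℂ) →ₗ[ℂ] (ι₁' → ℂ)) :
    (ι₁ → ℂ) →ₗ[ℂ] (ι₂ × ι₂' → ℂ) →ₗ[ℂ] (ι₃' → ℂ) :=
  LinearMap.mk₂ ℂ
    (fun a z => ∑ pp : ι₂ × ι₂', z pp • T' (J (T a (Pi.single pp.1 1))) (Pi.single pp.2 1))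
    (by
      intro a a' z
      simp only [map_add, LinearMap.add_apply, smul_add, Finset.sum_add_distrib])
    (by
      intro c a z
      simp only [map_smul, LinearMap.smul_apply, Finset.smul_sum]
      refine Finset.sum_congr rfl fun pp _ => ?_
      rw [smul_comm])
    (by
      intro a z z'
      simp only [Pi.add_apply, add_smul, Finset.sum_add_distrib])
    (by
      intro c a z
      simp only [Pi.smul_apply, smul_eq_mul, Finset.smul_sum, mul_smul])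

theorem colG5C_tmul (T : (ι₁ → ℂ) →ₗ[ℂ] (ι₂ → ℂ) →ₗ[ℂ] (ι₃ → ℂ))
    (T' : (ι₁' → ℂ) →ₗ[ℂ] (ι₂' → ℂ) →ₗ[ℂ] (ι₃' → ℂ)) (J : (ι₃ → ℂ) →ₗ[ℂ] (ι₁' → ℂ))
    (a : ι₁ → ℂ) (b : ι₂ → ℂ) (b' : ι₂' → ℂ) :
    colG5C T T' J a (tmul b b') = T' (J (T a b)) b' := by
  conv_rhs => rw [colG5_sum b, colG5_sum b']
  simp only [colG5C, LinearMap.mk₂_apply, map_sum, map_smul, LinearMap.sum_apply,
    LinearMap.smul_apply, tmul, Fintype.sum_prod_type, Finset.smul_sum, mul_smul]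
  rw [Finset.sum_comm]
  refine Finset.sum_congr rfl fun p' _ => Finset.sum_congr rfl fun p _ => ?_
  rw [smul_comm]

/-- `C a z = ∑_{p, p'} z (p, p') • T' (J (T a (Pi.single p 1))) (Pi.single p' 1)`; the `tmul` of basis vectors span, so equivariance is checked on `tmul b b'` (`colX_kron_op`). -/
theorem colG_comp (R₁ : StarRep Ty.D n ι₁) (R₂ : StarRep Ty.D n ι₂) (R₃ : StarRep Ty.D n ι₃)
    (R₁' : StarRep Ty.D n ι₁') (R₂' : StarRep Ty.D n ι₂') (R₃' : StarRep Ty.D n ι₃')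
    (T : (ι₁ → ℂ) →ₗ[ℂ] (ι₂ → ℂ) →ₗ[ℂ] (ι₃ → ℂ)) (T' : (ι₁' → ℂ) →ₗ[ℂ] (ι₂' → ℂ) →ₗ[ℂ] (ι₃' → ℂ))
    (J : (ι₃ → ℂ) →ₗ[ℂ] (ι₁' → ℂ)) (hT : RepEquivar R₁ R₂ R₃ T) (hT' : RepEquivar R₁' R₂' R₃' T')
    (hJ : ∀ X, Ty.D.InG X → ∀ a, J (R₃.op X a) = R₁'.op X (J a)) :
    ∃ C : (ι₁ → ℂ) →ₗ[ℂ] (ι₂ × ι₂' → ℂ) →ₗ[ℂ] (ι₃' → ℂ), RepEquivar R₁ (R₂.kron R₂') R₃' C ∧
      ∀ a b b', C a (tmul b b') = T' (J (T a b)) b' := by
  refine ⟨colG5C T T' J, ?_, colG5C_tmul T T' J⟩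
  intro X hX a z
  have key : (R₃'.op X) ∘ₗ (colG5C T T' J a) =
      colG5C T T' J (R₁.op X a) + (colG5C T T' J a) ∘ₗ ((R₂.kron R₂').op X) := by
    apply LinearMap.pi_ext'
    rintro ⟨p, p'⟩
    apply LinearMap.ext_ring
    simp only [LinearMap.comp_apply, LinearMap.coe_single, LinearMap.add_apply]
    rw [colG5_single, colX_kron_op, map_add, colG5C_tmul, colG5C_tmul, colG5C_tmul, colG5C_tmul,
      hT' X hX, ← hJ X hX, hT X hX, map_add, map_add, LinearMap.add_apply]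
    abel
  have := LinearMap.congr_fun key z
  simpa using this

/-! ## (G6) the top of `V(h')` -/

/-- sums of positive roots have nonnegative height -/
theorem colG_ht_qplus (x : Fin n → ℤ) (hx : InQplus x) : 0 ≤ dot (halfV x) (rhoV n) := by
  have hy : Dom (rhoV n) := pl_rho_dom
  obtain ⟨c, rfl⟩ := hx
  have h0 : halfV (0 : Fin n → ℤ) = 0 := by
    funext i; simp [halfV]
  apply Finset.sum_induction _ (fun x : Fin n → ℤ => 0 ≤ dot (halfV x) (rhoV n))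
  · intro a b ha hb
    rw [halfV_add, sc_dot_add_left]
    exact add_nonneg ha hb
  · rw [h0, sc_dot_zero_left]
  · intro r _
    have h1 : 0 ≤ dot (halfV (Claims.C0456.posRoot2 r.1.1 r.1.2.1 r.1.2.2)) (rhoV n) := by
      rw [halfV_posRoot2 _ _ r.2, rrt_dot_vec]
      have h2 := abs_le.1 (hy _ _ r.2)
      cases r.1.2.2 <;> simp [sgnB] <;> linarith [h2.1, h2.2]
    induction c r with
    | zero => rw [zero_smul, h0, sc_dot_zero_left]
    | succ k ih =>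
      rw [succ_nsmul, halfV_add, sc_dot_add_left]
      exact add_nonneg ih h1

/-- the weight of `T v₁ a` -/
theorem colG_T_wt (R₁ : StarRep Ty.D n ι₁) (R₂ : StarRep Ty.D n ι₂) (R₃ : StarRep Ty.D n ι₃)
    (T : (ι₁ → ℂ) →ₗ[ℂ] (ι₂ → ℂ) →ₗ[ℂ] (ι₃ → ℂ)) (hT : RepEquivar R₁ R₂ R₃ T) (v₁ : ι₁ → ℂ)
    (h χ : Vec n) (h₁ : v₁ ∈ R₁.wt h) (a : ι₂ → ℂ) (ha : a ∈ R₂.wt χ) :
    T v₁ a ∈ R₃.wt (h + χ) := by
  rw [mem_wt] at h₁ ha ⊢
  intro x
  rw [hT _ (inG_Hc x), h₁ x, ha x, map_smul, map_smul, LinearMap.smul_apply, ← add_smul,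
    sc_dot_add_left]
  push_cast
  rfl

/-- `a ∈ wt χ`: `T v₁ a ∈ R₃.wt (h + χ)` (equivariance for `Hc x`, `mem_wt`).  `P` = the projection of `exists_proj` onto `cyc v₃`; `x - P x ∈ orthC`, so `J x = J (P x)`; `P (T v₁ a) ∈ cyc v₃ ⊓ wt (h + χ)`.
If `ht (h + χ) > ht h'` this is `0` (`rir_wt_below` / `rep_top`: weights of `cyc v₃` are `h' - Q⁺`).  If `χ = h' - h`: `P (T v₁ w) = c v₃` (`rir_top_line`), `c ⟨v₃, v₃⟩ = ⟨v₃, P (T v₁ w)⟩ = ⟨P v₃, T v₁ w⟩ = ⟨v₃, T v₁ w⟩`. -/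
theorem colG_top (hn : 2 ≤ n) (R₁ : StarRep Ty.D n ι₁) (R₂ : StarRep Ty.D n ι₂) (R₃ : StarRep Ty.D n ι₃)
    (T : (ι₁ → ℂ) →ₗ[ℂ] (ι₂ → ℂ) →ₗ[ℂ] (ι₃ → ℂ)) (hT : RepEquivar R₁ R₂ R₃ T) (v₁ : ι₁ → ℂ)
    (v₃ : ι₃ → ℂ) (h h' : Vec n) (h₁ : IsHW R₁ v₁ h) (h₃ : IsHW R₃ v₃ h')
    (v₁' : ι₁' → ℂ) (J : (ι₃ → ℂ) →ₗ[ℂ] (ι₁' → ℂ)) (hJ1 : J v₃ = v₁')
    (hJ0 : ∀ a ∈ orthC (R₃.cyc v₃), J a = 0) :
    (∀ a ∈ colAbove R₂ (dot (h' - h) (rhoV n)), J (T v₁ a) = 0) ∧
      ∀ w ∈ R₂.wt (h' - h), J (T v₁ w) = ((star v₃ ⬝ᵥ T v₁ w) / (star v₃ ⬝ᵥ v₃)) • v₁' := by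
  obtain ⟨P, hP1, hP2, hP3, hP4, hP5⟩ := exists_proj R₃ (R₃.cyc v₃) (cyc_inv R₃ v₃)
  have hJP : ∀ x, J x = J (P x) := by
    intro x
    have hx : x - P x ∈ orthC (R₃.cyc v₃) := by
      intro a ha
      rw [dotProduct_sub, ← hP5, hP2 a ha, sub_self]
    have := hJ0 _ hx
    rw [map_sub, sub_eq_zero] at this
    exact this
  have hPw : ∀ (χ : Vec n) (x : ι₃ → ℂ), x ∈ R₃.wt χ → P x ∈ R₃.wt χ := by
    intro χ x hx
    rw [mem_wt] at hx ⊢
    intro z
    rw [← hP4 _ (inG_Hc z), hx z, map_smul]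
  have hv1 : v₁ ∈ R₁.wt h := rir_hw_wt h₁
  constructor
  · intro a ha
    have hle : colAbove R₂ (dot (h' - h) (rhoV n)) ≤ LinearMap.ker (J ∘ₗ T v₁) := by
      refine iSup₂_le fun χ hχ b hb => ?_
      rw [LinearMap.mem_ker, LinearMap.comp_apply, hJP]
      have hw := hPw _ _ (colG_T_wt R₁ R₂ R₃ T hT v₁ h χ hv1 b hb)
      by_cases h0 : P (T v₁ b) = 0
      · rw [h0, map_zero]
      · exfalso
        obtain ⟨γ, hγ, e⟩ := rir_wt_below R₃ v₃ h' h₃ _ _ (hP1 _) hw h0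
        have h2 := colG_ht_qplus γ hγ
        have e2 : χ = h' - h - halfV γ := by
          have : χ = (h + χ) - h := by abel
          rw [this, e]; abel
        rw [e2, sc_dot_sub_left (h' - h)] at hχ
        linarith
    have := hle ha
    rwa [LinearMap.mem_ker, LinearMap.comp_apply] at this
  · intro w hw
    have hw2 : P (T v₁ w) ∈ R₃.wt h' := by
      have := hPw _ _ (colG_T_wt R₁ R₂ R₃ T hT v₁ h _ hv1 w hw)
      rwa [add_sub_cancel] at this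
    obtain ⟨c, hc⟩ := rir_top_line R₃ v₃ h' h₃ _ (hP1 _) hw2
    have hne : star v₃ ⬝ᵥ v₃ ≠ 0 := fun e => h₃.ne ((star_dot_self_eq_zero v₃).1 e)
    have hcv : star v₃ ⬝ᵥ T v₁ w = c * (star v₃ ⬝ᵥ v₃) := by
      have := hP5 v₃ (T v₁ w)
      rw [hP2 v₃ (mem_cyc R₃ v₃), hc, dotProduct_smul, smul_eq_mul] at this
      exact this
    rw [hJP, hc, map_smul, hJ1, hcv, mul_div_assoc, div_self hne, mul_one]

/-- the weight of a nonvanishing coefficient (`wt_orth`) -/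
theorem colG_wt_eq (R₁ : StarRep Ty.D n ι₁) (R₂ : StarRep Ty.D n ι₂) (R₃ : StarRep Ty.D n ι₃)
    (T : (ι₁ → ℂ) →ₗ[ℂ] (ι₂ → ℂ) →ₗ[ℂ] (ι₃ → ℂ)) (hT : RepEquivar R₁ R₂ R₃ T) (v₁ : ι₁ → ℂ)
    (v₃ : ι₃ → ℂ) (h h' δ : Vec n) (h₁ : IsHW R₁ v₁ h) (h₃ : IsHW R₃ v₃ h') (w : ι₂ → ℂ)
    (hw : w ∈ R₂.wt δ) (hne : star v₃ ⬝ᵥ T v₁ w ≠ 0) : δ = h' - h := by
  by_contra hcon
  apply hne
  refine wt_orth R₃ h' (h + δ) ?_ _ _ (rir_hw_wt h₃)
    (colG_T_wt R₁ R₂ R₃ T hT v₁ h δ (rir_hw_wt h₁) w hw)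
  intro e
  apply hcon
  rw [e]; abel

/-! ## (G7) the chain of extremal vectors along a nice list -/

theorem colG7_dot_refl (γ γ' : RootD n) (h : γ.Disj γ') (x : Vec n) :
    dot (refl γ x) γ'.vec = dot x γ'.vec := by
  rw [sc_dot_refl_left, sc_refl_of_orth γ γ'.vec (by rw [dot_comm]; exact colG_disj_dot γ γ' h)]

/-- Induction on `M` (generalising `f`, `y`): `colX_step` at `(f, γ)` gives `m`; `ColNice (s_γ f) M₁` because `(s_γ f ρ)·γ' = (f ρ)·γ'` (`colG_disj_dot`, `sc_refl_of_orth`, `sc_dot_refl_left`);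
lowness of `y` for `γ' ∈ M₁`: `colX_step` at `(f, γ')`; the exponents for `s_γ f` agree with those for `f` since `⟨s_γ f μ, γ'⟩ = ⟨f μ, γ'⟩`. -/
theorem colG_chain (hn : 2 ≤ n) (R : StarRep Ty.D n ι) (v : ι → ℂ) (μ : Vec n) (hv : IsHW R v μ)
    (f : Vec n → Vec n) (hf : IsWf f) (M : List (RootD n)) (hM : ColNice f M) (y : ι → ℂ)
    (hy : ColExtr R v μ f y) :
    ∃ E : List (RootD n × ℕ), E.map Prod.fst = M ∧ ColLow R E (f μ) y ∧
      ColExtr R v μ (colRefl M f) (colPow R E y) := by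
  induction M generalizing f y with
  | nil =>
    refine ⟨[], rfl, ⟨hy.2.2, ?_⟩, hy⟩
    intro p hp
    simp at hp
  | cons γ M₁ ih =>
    obtain ⟨hdown, hpair⟩ := hM
    rw [List.pairwise_cons] at hpair
    obtain ⟨hγM, hpair₁⟩ := hpair
    obtain ⟨m, h1, h2, h3, -⟩ :=
      colX_step hn R v μ hv f hf y hy γ (hdown γ (List.mem_cons_self)).2
    have hnice : ColNice (fun x => refl γ (f x)) M₁ := by
      refine ⟨fun γ' hγ' => ⟨(hdown γ' (List.mem_cons_of_mem _ hγ')).1, ?_⟩, hpair₁⟩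
      rw [colG7_dot_refl γ γ' (hγM γ' hγ')]
      exact (hdown γ' (List.mem_cons_of_mem _ hγ')).2
    obtain ⟨E₁, hE₁, hlow, hext⟩ := ih (fun x => refl γ (f x)) (colF_wf_refl γ f hf) hnice _ h3
    refine ⟨(γ, m) :: E₁, by rw [List.map_cons, hE₁], ⟨hy.2.2, ?_⟩, hext⟩
    intro p hp
    rcases List.mem_cons.mp hp with rfl | hp
    · exact ⟨h2, h1⟩
    · have hpM : p.1 ∈ M₁ := by
        rw [← hE₁]
        exact List.mem_map_of_mem hp
      obtain ⟨-, -, h2', -, -⟩ :=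
        colX_step hn R v μ hv f hf y hy p.1 (hdown p.1 (List.mem_cons_of_mem _ hpM)).2
      refine ⟨h2', ?_⟩
      have := (hlow.2 p hp).2
      rwa [colG7_dot_refl γ p.1 (hγM p.1 hpM)] at this

end Claimed.Agent.R282
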