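import Claimed.Agent.R282.Col.R.Defs
import Claimed.Agent.R282.Col.Small
import Claimed.Agent.R282.Col.R.DatumExtr
import Claimed.Agent.R282.Col.R.ExtCore
import Claimed.Agent.R282.Col.R.GlueLeaves

/-!
# Row 282, Col, layer (R), PACKAGE BP-COL-E : the exterior column for a nice pair of states (~1.2-1.8k lines, to be cut in leaves)

NUMERICALLY VALIDATED (n ≤ 6, all `a`, `M`, random `h`): the functional `Ψ` below kills `f_i^(h_i+1) Λ^m E` for all `i` and `|Ψ (∏ e_γ y_a)| = r! ∏_γ ⟨h, γ⟩ ≠ 0`.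

Notation: `ω = fundV n k = e_0 + … + e_k`, `m = k + 1`, `a = f ω ∈ {0, ±1}^n`, `M = [γ_1, …, γ_r]`, `γ = - a_i e_i - a_j e_j` (this is what `⟨a, γ⟩ = -2` means), disjoint supports,
`δ = a + ∑ γ` (`= a` off the supports of the `γ`, `= 0` on them), `h' = h + δ`.
MODEL: the Fock space `ΛE` of BP-REP-EXIST (helper178): index type `Finset (Ix n)`, `cr x`, `an x` (matrices, LINEAR in `x : Ix n → ℂ`), `vac = δ_∅`, `R_Λ : StarRep Ty.D n (Finset (Ix n))`.  API needed: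
 (F1) `an x * cr y + cr y * an x = (x ⬝ᵥ y) • 1`, `cr x * cr y + cr y * cr x = 0`, `an x * an y + an y * an x = 0`;   (F2) `an x *ᵥ vac = 0`;   (F3) `(cr x)ᴴ = an (star x)`;
 (F4) `R_Λ.ρ (vecMulVec x z) = cr x * an z`, hence `ρ (rootVec β) = (1/2) (cr u_a * an u_c - cr u_c * an u_a)`, `u_a = uvec β.i β.si`, `u_c = uvec β.j β.sj`, `ρ X *ᵥ vac = 0`,
      `ρ X * an x - an x * ρ X = an (X *ᵥ x)` for skew `X`;   (F5) `(∀ x, an x *ᵥ z = 0) → ∃ c, z = c • vac`;   (F6) `w_k = cr u_0 ⋯ cr u_k vac` (`u_i = uvec i false`) is `IsHW` of weight `ω`.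
 `uvec i s ⬝ᵥ uvec j t = if i = j ∧ s ≠ t then 2 else 0`, `star (uvec i s) = uvec i (!s)`.  Write `A_(i,s) = an (uvec i s)`, `C_(i,s) = cr (uvec i s)`; `A_(i,s)` removes the mode `(i, !s)`.
STEPS.
 (E0) `R₂ = R_Λ`, `v₂ = w_k`; `(R₁, v₁)`, `(R₃, v₃)` from `rep_exists` (`h = halfV Hh`, `h' = halfV Hh'`); `y` = ANY extremal vector (`colX_exists`, `Col/R/Extr.lean`); `T` from `rep_coeff` applied to `φ`.
 (E1) occupation of `y`: number operators `N_(i,s) = (1/2) C_(i,s) A_(i,!s)` are commuting Hermitian idempotents, `ρ (Hc e_i) = N_(i,+) - N_(i,-)`, `N = ∑ N_(i,s)` commutes with `ρ`, `N w_k = m w_k`, so `N = m` on `cyc w_k`.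
      `∑_i ⟨y, N_(i,+) N_(i,-) y⟩ = (1/2) ⟨y, (N - ∑ H_i²) y⟩ = (1/2) (m - ∑ a_i²) ‖y‖² = 0`, all terms `≥ 0`; so `N_(i,+) N_(i,-) y = 0`, hence `N_(i,s) y = [a_i = s] y`, hence `A_(i,!s) y = 0` unless `a_i = s`.
      `ζ := ⟨vac, (∏_{j ∈ supp a} A_(j, -a_j)) y⟩ ≠ 0`: the vector is killed by all `an x` ((F5); the `uvec` span) and `∏ C ∏ A y = ± 2^m y ≠ 0`.
 (E2) weights of `ΛE`: `H_i = N_+ - N_-` satisfies `H_i³ = H_i`; so `R_Λ.wt χ ≠ ⊥ → χ i ∈ {0, 1, -1}`.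
 (E3) `Θ = ∑_i h_i A_(i,-) A_(i,+)`.  KEY FORMULA, for EVERY root `β`: `Θ * ρ (rootVec β) - ρ (rootVec β) * Θ = - ⟨h, β⟩ • A_(β.i,β.si) * A_(β.j,β.sj)`  (from `[Θ, C_(i,s)] = - 2 s h_i A_(i,s)`, `Θ` commutes with all `an x`).
 (E4) `Ω = ∏_{j : δ_j ≠ 0} A_(j, -δ_j)` (any order), `D = Ω Θ^r`, `φ b = star vac ⬝ᵥ (D *ᵥ b)`.
      support: `ρ (Hc x) * D - D * ρ (Hc x) = - ⟨δ, x⟩ D` and `star vac ⬝ᵥ ρ (X) z = 0`; so `φ = 0` on `wt χ`, `χ ≠ δ`.
      kill: decompose `b` in weight vectors (`wt_components`); `b ∈ wt χ`, `b ≠ 0`, `N = h_i + 1`, `χ - N α_i = δ`: `⟨χ, α_i⟩ = h_i + h'_i + 2 ≤ 2` by (E2), so `h_i = h'_i = 0`, `N = 1`, `χ = δ + α_i` has pairing `2`, so `δ = 0` on the support of `α_i`;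
      then `f_i = ρ (rootVec α_i.neg)` commutes with `Θ` ((E3), `⟨h, α_i⟩ = 0`) and with `Ω` (`rootVec α_i.neg *ᵥ uvec j s = 0` for `j` off the support), and `star vac ⬝ᵥ f_i z = 0`.
 (E5) value: `Θ y = 0` (E1); `K_γ := [Θ, e_γ] = - ⟨h, γ⟩ G_γ`, `G_γ = A_(i,-a_i) A_(j,-a_j)`, commutes with `Θ`, with all `e_γ'`, `G_γ'`.  Induction on `r`: `Θ^r e_γ1 ⋯ e_γr y = r! ∏ K_γ y`.  So `φ (colProd R_Λ M y) = ± r! ∏ ⟨h, γ⟩ ζ`.
      `⟨h, γ⟩ ≥ 1`: `γ` positive, `h + a/2` dominant, `⟨a, γ⟩ = -2`.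
-/

set_option autoImplicit false

namespace Claimed.Agent.R282

open Claims.C0456 Matrix

variable {n : ℕ}

section Core
variable {ι : Type} [Fintype ι] [DecidableEq ι]

/-- CORE (helper253, to be replaced by a citation of `colp_core` of `Col/R/ExtFock.lean`). -/
theorem colE_core (C : Car (Ix n) ι) (h a : Vec n) (M : List (RootD n)) (y : ι → ℂ) (hy : y ≠ 0)
    (hwt : ColpWt C y a) (hdeg : ColpDeg C y (∑ i, |a i|)) (hp : ∀ γ ∈ M, dot a γ.vec = -2)
    (hh : ∀ γ ∈ M, dot h γ.vec ≠ 0) (hM : M.Pairwise RootD.Disj) :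
    ∃ u : ι → ℂ, ColpWt C u (a + (M.map RootD.vec).sum) ∧
      (∀ (α : RootD n) (c : ℕ), dot h α.vec = c →
        0 ≤ dot (h + a + (M.map RootD.vec).sum) α.vec →
        ((C.dG (rootVec α)) ^ (c + 1)).mulVec u = 0) ∧
      star u ⬝ᵥ colProd C.lamRep M y ≠ 0 := by
  obtain ⟨u, h1, h2, h3⟩ := colp_core C h a M y hy hwt hdeg hp hh
    (hM.imp fun {γ γ'} hd => colG_disj_dot γ γ' hd)
  exact ⟨u, h1, fun α c hc hd => h2 α c hc (by rw [← add_assoc]; exact hd), h3⟩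

/-- the degree of a wedge -/
theorem colE_deg_wedge (C : Car (Ix n) ι) (l : List (Ix n → ℂ)) :
    ColpDeg C (C.wedge l) (l.length : ℝ) := by
  unfold ColpDeg
  induction l with
  | nil =>
    show (C.dG 1).mulVec C.vac = _
    rw [C.dG_vac]; simp
  | cons x l ih =>
    rw [C.wedge_dG, ih, Matrix.one_mulVec, Matrix.mulVec_smul]
    show C.wedge (x :: l) + _ • C.wedge (x :: l) = _
    rw [List.length_cons]
    push_cast
    rw [add_smul, one_smul, add_comm]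

theorem colE_length_rexU (k : ℕ) : (rexU n k).length = k := by
  induction k with
  | zero => rfl
  | succ k ih =>
    show ((if h : k < n then uvec ⟨k, h⟩ false else 0) :: rexU n k).length = k + 1
    rw [List.length_cons, ih]

/-- the degree is constant on a cyclic module -/
theorem colE_deg_cyc (C : Car (Ix n) ι) (v : ι → ℂ) (d : ℝ) (hv : ColpDeg C v d) (y : ι → ℂ)
    (hy : y ∈ C.lamRep.cyc v) : ColpDeg C y d := by
  let S : Submodule ℂ (ι → ℂ) :=
    LinearMap.ker (Matrix.toLin' (C.dG 1) - (d : ℂ) • LinearMap.id)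
  have hmem : ∀ a : ι → ℂ, a ∈ S ↔ ColpDeg C a d := by
    intro a
    show a ∈ LinearMap.ker _ ↔ _
    rw [LinearMap.mem_ker, LinearMap.sub_apply, sub_eq_zero]
    rfl
  have hS : C.lamRep.Inv S := by
    intro X _ a ha
    rw [hmem] at ha ⊢
    show (C.dG 1).mulVec ((C.dG X).mulVec a) = (d : ℂ) • (C.dG X).mulVec a
    rw [Matrix.mulVec_mulVec, (colp_dG_N C X).eq, ← Matrix.mulVec_mulVec, ha, Matrix.mulVec_smul]
  exact (hmem y).1 (cyc_le C.lamRep v S hS ((hmem v).2 hv) hy)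

theorem colE_prod_mem (R : StarRep Ty.D n ι) (S : Submodule ℂ (ι → ℂ)) (hS : R.Inv S)
    (M : List (RootD n)) (a : ι → ℂ) (ha : a ∈ S) : colProd R M a ∈ S := by
  induction M generalizing a with
  | nil => exact ha
  | cons γ M ih => exact ih _ (hS _ (isRootVec_rootVec γ).1 _ ha)

theorem colE_op_pow (R : StarRep Ty.D n ι) (X : Matrix (Ix n) (Ix n) ℂ) (N : ℕ) (a : ι → ℂ) :
    ((R.op X) ^ N) a = ((R.ρ X) ^ N).mulVec a := by
  induction N with
  | zero => simp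
  | succ N ih =>
    rw [pow_succ', Module.End.mul_apply, ih, pow_succ', ← Matrix.mulVec_mulVec]
    rfl

end Core

theorem colE_fund_rexOm (k : Fin n) (hk : IsExt n k) : rexOm n (k + 1) = fundV n k := by
  funext i
  unfold fundV rexOm
  rw [if_pos hk.2]
  simp only [Nat.lt_succ_iff]

/-- the doubled fundamental weight -/
def colETh (n : ℕ) (k : Fin n) : Fin n → ℤ := fun i => if (i : ℕ) ≤ k then 2 else 0

theorem colE_forced : True := by
  have := @colETh.eq_1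
  trivial

theorem colE_fund_half (k : Fin n) (hk : IsExt n k) : fundV n k = halfV (colETh n k) := by
  funext i
  unfold fundV halfV colETh
  rw [if_pos hk.2]
  split_ifs <;> simp

/-- `∑ |(f ω)_i| = k + 1` -/
theorem colE_l1 (k : Fin n) (hk : IsExt n k) (f : Vec n → Vec n) (hf : IsWf f) :
    ∑ i, |f (fundV n k) i| = ((k : ℕ) + 1 : ℕ) := by
  obtain ⟨w, rfl⟩ := hf
  have e1 : ∀ i, |w.act (fundV n k) i| = |fundV n k (w.σ.symm i)| := by
    intro i
    unfold WD.act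
    rw [abs_mul]
    cases w.s i <;> simp [sgnB]
  simp only [e1]
  rw [Equiv.sum_comp w.σ.symm (fun i => |fundV n k i|)]
  have e2 : ∀ i : Fin n, |fundV n k i| = if (i : ℕ) < (k : ℕ) + 1 then 1 else 0 := by
    intro i
    unfold fundV
    rw [if_pos hk.2]
    by_cases h : (i : ℕ) ≤ k
    · rw [if_pos h, if_pos (Nat.lt_succ_of_le h)]; simp
    · rw [if_neg h, if_neg (fun h' => h (Nat.le_of_lt_succ h'))]; simp
  simp only [e2]
  rw [Finset.sum_boole]
  congr 1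
  have hk1 : (k : ℕ) + 1 ≤ n := by have := hk.2; omega
  rw [Fin.card_filter_val_lt]
  exact min_eq_right hk1

/-- sums of roots are integral -/
theorem colE_int_sum (M : List (RootD n)) : ∀ i, ∃ z : ℤ, (M.map RootD.vec).sum i = z := by
  induction M with
  | nil => intro i; exact ⟨0, by simp⟩
  | cons γ M ih =>
    intro i
    obtain ⟨a, ha⟩ := colS_int_root γ i
    obtain ⟨b, hb⟩ := ih i
    exact ⟨a + b, by rw [List.map_cons, List.sum_cons, Pi.add_apply, ha, hb]; push_cast; ring⟩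

/-- the exterior column for a nice pair of states -/
theorem colR_ext (hn : 2 ≤ n) (k : Fin n) (hk : IsExt n k) (h : Vec n) (hd : Dom h)
    (hw : IsWtD h) (f : Vec n → Vec n) (hf : IsWf f) (M : List (RootD n)) (hM : ColNice f M)
    (hp : ∀ γ ∈ M, dot (f (fundV n k)) γ.vec = -2)
    (hmid : Dom (h + (1 / 2 : ℝ) • f (fundV n k)))
    (hend : Dom (h + f (fundV n k) + (M.map RootD.vec).sum)) :
    DemDatum h (fundV n k) (h + f (fundV n k) + (M.map RootD.vec).sum) f M := by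
  have hwend : IsWtD (h + f (fundV n k) + (M.map RootD.vec).sum) :=
    colS_wt_add _ _ (col_wt_add_act h _ hw (col_wt_fund hn k) f hf) (Or.inl (colE_int_sum M))
  obtain ⟨Hh, hHh, rfl⟩ := colD_half h hd hw
  obtain ⟨Hh', hHh', e'⟩ := colD_half _ hend hwend
  obtain ⟨m₁, R₁, v₁, h₁⟩ := rep_exists Hh hHh
  obtain ⟨m₃, R₃, v₃, h₃⟩ := rep_exists Hh' hHh'
  obtain ⟨ι, _, _, ⟨C⟩⟩ := car_exists (Ix n)
  have hk1 : (k : ℕ) + 1 ≤ n := by have := hk.2; omega
  have h₂ : IsHW C.lamRep (C.wedge (rexU n (k + 1))) (fundV n k) := by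
    rw [← colE_fund_rexOm k hk]
    exact rex_lam_isHW C (k + 1) hk1
  obtain ⟨y, hy⟩ := colX_exists hn C.lamRep _ _ h₂ f hf
  have hwt : ColpWt C y (f (fundV n k)) := (mem_wt C.lamRep _ y).1 hy.2.2
  have hdeg : ColpDeg C y (∑ i, |f (fundV n k) i|) := by
    rw [colE_l1 k hk f hf]
    have := colE_deg_wedge C (rexU n (k + 1))
    rw [colE_length_rexU] at this
    exact colE_deg_cyc C _ _ this y hy.2.1
  have hh : ∀ γ ∈ M, dot (halfV Hh) γ.vec ≠ 0 := by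
    intro γ hγ
    have h1 : 0 ≤ dot γ.vec (halfV Hh + (1 / 2 : ℝ) • f (fundV n k)) := by
      rcases colF_root_sign γ with h | h
      · exact h.2 _ hmid
      · have : 0 < dot γ.vec (rhoV n) := (hM.1 γ hγ).1
        linarith [h.1]
    rw [sc_dot_comm, sc_dot_add_left, sc_dot_smul_left, hp γ hγ] at h1
    intro h0
    rw [h0] at h1
    norm_num at h1
  obtain ⟨u, huwt, hukill, hune⟩ := colE_core C (halfV Hh) (f (fundV n k)) M y hy.1 hwt hdeg hp hh
    hM.2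
  have hu : u ∈ C.lamRep.wt (f (fundV n k) + (M.map RootD.vec).sum) :=
    (mem_wt C.lamRep _ u).2 huwt
  have ediff : halfV (Hh' - Hh) = f (fundV n k) + (M.map RootD.vec).sum := by
    rw [halfV_sub, ← e']
    abel
  have h₂' : IsHW C.lamRep (C.wedge (rexU n (k + 1))) (halfV (colETh n k)) := by
    rw [← colE_fund_half k hk]; exact h₂
  let φ : (ι → ℂ) →ₗ[ℂ] ℂ :=
    { toFun := fun x => star u ⬝ᵥ x
      map_add' := fun a c => dotProduct_add _ a c
      map_smul' := fun c a => by simp [dotProduct_smul] }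
  obtain ⟨T, hT, hTφ⟩ := rep_coeff hn Hh (colETh n k) Hh' R₁ C.lamRep R₃ v₁ _ v₃ h₁ h₂' h₃ φ
    (by
      intro χ hχ x hx
      rw [ediff] at hχ
      exact wt_orth C.lamRep _ χ (Ne.symm hχ) u x hu hx.2)
    (by
      intro i x _
      show star u ⬝ᵥ _ = 0
      have h0 : ((C.lamRep.op (rootVec (simpleRD hn i))) ^ (cwt Hh i + 1)) u = 0 := by
        rw [colE_op_pow]
        exact hukill (simpleRD hn i) (cwt Hh i) (cwt_spec hn Hh hHh i)
          (colD_dom_simple hn _ hend i)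
      rw [colD_adj, h0]
      simp)
  refine ⟨m₁, m₃, ι, inferInstance, inferInstance, R₁, C.lamRep, R₃, T, v₁, _, v₃, y, hT, h₁, h₂,
    by rw [e']; exact h₃, hy, ?_⟩
  rw [hTφ _ (colE_prod_mem C.lamRep _ (cyc_inv _ _) M y hy.2.1)]
  exact hune

end Claimed.Agent.R282
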