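import Claimed.Agent.R282.Rep.R.Exist.Lam
import Claimed.Agent.R282.Rep.R.Root
import Claimed.Agent.R282.Col.R.Defs

/-!
# Row 282, Col, layer (R), exterior column: Fock space calculus (helper253, prefix `colp_`)

Everything is deduced from the abstract CAR relations (`Rep/R/Exist/Car.lean`); no basis, no wedge signs, the vacuum is never used.
* `colpA2 C Z = ∑ Z p q c_p c_q` (quadratic annihilators), `colp_A2_dG : [A2 Z, dG X] = A2 (Z X + Xᵀ Z)`, `colp_A2_comm`.
* `colpTh C h = A2 (Hc h)` (`Θ`), `colpIo C β = A2 (rootVec β)`; KEY FORMULA `colp_Th_A : [Θ, dG (rootVec β)] = ⟨β, h⟩ • Io β` (from `isRootVec_rootVec`).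
* `ColpWt C y χ`, `ColpDeg C y d` (weight, degree = eigenvalue of `dG 1`), transport lemmas `colp_wt_*`, `colp_deg_*`.
* (W) `colp_W_coord : y ≠ 0 → ColpWt C y χ → |χ i| ≤ 1`, `colp_W_sum : … → ColpDeg C y d → ∑ |χ i| ≤ d` (positivity of `⟨y, c⁺ c y⟩`).
* `colp_an_ne` : removing an occupied mode does not kill.
* `colpIoL C M y = Io_{γ_r} ⋯ Io_{γ_1} y` (`= e_δ`), `colp_IoL_spec` : it is `≠ 0`, of weight `δ = a + ∑ γ` and of degree `∑ |δ i|`.
-/

set_option autoImplicit false

namespace Claimed.Agent.R282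

open Matrix

section CarAlg

variable {Q ι : Type} [Fintype Q] [DecidableEq Q] [Fintype ι] [DecidableEq ι] (C : Car Q ι)

theorem colp_cr_conjTranspose (x : Q → ℂ) : (C.cr x)ᴴ = C.an (star x) := by
  simp [Car.cr, Car.an, conjTranspose_sum, conjTranspose_smul]

theorem colp_an_conjTranspose (x : Q → ℂ) : (C.an x)ᴴ = C.cr (star x) := by
  simp [Car.cr, Car.an, conjTranspose_sum, conjTranspose_smul]

theorem colp_an_anti (x y : Q → ℂ) : C.an x * C.an y + C.an y * C.an x = 0 := by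
  have h := congrArg conjTranspose (C.cr_anti (star y) (star x))
  simpa [conjTranspose_add, conjTranspose_mul, colp_cr_conjTranspose] using h

theorem colp_an_add (x y : Q → ℂ) : C.an (x + y) = C.an x + C.an y := by
  simp [Car.an, add_smul, Finset.sum_add_distrib]

theorem colp_an_smul (a : ℂ) (x : Q → ℂ) : C.an (a • x) = a • C.an x := by
  simp [Car.an, Finset.smul_sum, smul_smul]

theorem colp_dG_vecMulVec (a b : Q → ℂ) : C.dG (vecMulVec a b) = C.cr a * C.an b := by
  unfold Car.dG Car.cr Car.an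
  rw [rexc_mul_sum]
  simp [vecMulVec_apply]

/-- quadratic annihilators -/
noncomputable def colpA2 (Z : Matrix Q Q ℂ) : Matrix ι ι ℂ := ∑ p, ∑ q, Z p q • (C.c p * C.c q)

theorem colp_A2_add (Z Z' : Matrix Q Q ℂ) : colpA2 C (Z + Z') = colpA2 C Z + colpA2 C Z' := by
  simp [colpA2, add_smul, Finset.sum_add_distrib]

theorem colp_A2_smul (a : ℂ) (Z : Matrix Q Q ℂ) : colpA2 C (a • Z) = a • colpA2 C Z := by
  simp [colpA2, Finset.smul_sum, smul_smul]

theorem colp_A2_zero : colpA2 C (0 : Matrix Q Q ℂ) = 0 := by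
  simp [colpA2]

theorem colp_A2_vecMulVec (a b : Q → ℂ) : colpA2 C (vecMulVec a b) = C.an a * C.an b := by
  unfold colpA2 Car.an
  rw [rexc_mul_sum]
  simp [vecMulVec_apply]

theorem colp_A2_prod (Z : Matrix Q Q ℂ) :
    colpA2 C Z = ∑ a : Q × Q, Z a.1 a.2 • (C.c a.1 * C.c a.2) := by
  rw [Fintype.sum_prod_type]; rfl

theorem colp_quad (p q r s : Q) :
    (C.c p * C.c q) * ((C.c r)ᴴ * C.c s) - ((C.c r)ᴴ * C.c s) * (C.c p * C.c q) =
      (if q = r then C.c p * C.c s else 0) + (if p = r then C.c s * C.c q else 0) := by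
  have h1 : C.c q * (C.c r)ᴴ = (if q = r then 1 else 0) - (C.c r)ᴴ * C.c q :=
    eq_sub_of_add_eq (C.car q r)
  have h2 : C.c p * (C.c r)ᴴ = (if p = r then 1 else 0) - (C.c r)ᴴ * C.c p :=
    eq_sub_of_add_eq (C.car p r)
  have h3 : C.c q * C.c s = - (C.c s * C.c q) := eq_neg_of_add_eq_zero_left (C.anti q s)
  have h4 : C.c p * C.c s = - (C.c s * C.c p) := eq_neg_of_add_eq_zero_left (C.anti p s)
  calc (C.c p * C.c q) * ((C.c r)ᴴ * C.c s) - ((C.c r)ᴴ * C.c s) * (C.c p * C.c q)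
      = C.c p * (C.c q * (C.c r)ᴴ) * C.c s - ((C.c r)ᴴ * C.c s) * (C.c p * C.c q) := by
        noncomm_ring
    _ = C.c p * (if q = r then 1 else 0) * C.c s - (C.c p * (C.c r)ᴴ) * (C.c q * C.c s)
          - ((C.c r)ᴴ * C.c s) * (C.c p * C.c q) := by
        rw [h1]; noncomm_ring
    _ = C.c p * (if q = r then 1 else 0) * C.c s + (if p = r then 1 else 0) * (C.c s * C.c q)
          - (C.c r)ᴴ * (C.c p * C.c s) * C.c q - ((C.c r)ᴴ * C.c s) * (C.c p * C.c q) := by
        rw [h2, h3]; noncomm_ring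
    _ = C.c p * (if q = r then 1 else 0) * C.c s + (if p = r then 1 else 0) * (C.c s * C.c q) := by
        rw [h4]; noncomm_ring
    _ = _ := by
        congr 1
        · split_ifs <;> simp
        · split_ifs <;> simp

theorem colp_A2_dG (Z X : Matrix Q Q ℂ) :
    colpA2 C Z * C.dG X - C.dG X * colpA2 C Z = colpA2 C (Z * X + Xᵀ * Z) := by
  have e1 : colpA2 C Z * C.dG X - C.dG X * colpA2 C Z =
      ∑ a : Q × Q, ∑ b : Q × Q, (Z a.1 a.2 * X b.1 b.2) •
        ((if a.2 = b.1 then C.c a.1 * C.c b.2 else 0) + (if a.1 = b.1 then C.c b.2 * C.c a.2 else 0)) := by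
    rw [colp_A2_prod, Car.rexc_dG_prod, rexc_mul_sum, rexc_mul_sum', ← Finset.sum_sub_distrib]
    simp only [← Finset.sum_sub_distrib, ← smul_sub, colp_quad]
  rw [e1, colp_A2_add]
  simp only [smul_add, Finset.sum_add_distrib]
  congr 1
  · simp only [Fintype.sum_prod_type]
    unfold colpA2
    refine Finset.sum_congr rfl fun p _ => ?_
    have : ∀ q : Q, ∑ r, ∑ s, (Z p q * X r s) • (if q = r then C.c p * C.c s else 0)
        = ∑ s, (Z p q * X q s) • (C.c p * C.c s) := by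
      intro q
      rw [Finset.sum_eq_single q]
      · simp
      · intro r _ hr
        simp [Ne.symm hr]
      · simp
    simp only [this]
    rw [Finset.sum_comm]
    simp only [Matrix.mul_apply, Finset.sum_smul]
  · simp only [Fintype.sum_prod_type]
    unfold colpA2
    have : ∀ p q : Q, ∑ r, ∑ s, (Z p q * X r s) • (if p = r then C.c s * C.c q else 0)
        = ∑ s, (Z p q * X p s) • (C.c s * C.c q) := by
      intro p q
      rw [Finset.sum_eq_single p]
      · simp
      · intro r _ hr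
        simp [Ne.symm hr]
      · simp
    simp only [this]
    simp only [Matrix.mul_apply, Finset.sum_smul, Matrix.transpose_apply]
    -- ∑ p q s = ∑ s q p
    rw [Finset.sum_comm]
    conv_lhs => enter [2, q]; rw [Finset.sum_comm]
    rw [Finset.sum_comm]
    refine Finset.sum_congr rfl fun s _ => Finset.sum_congr rfl fun q _ =>
      Finset.sum_congr rfl fun p _ => ?_
    rw [mul_comm]


theorem colp_cc_comm (p q r s : Q) : Commute (C.c p * C.c q) (C.c r * C.c s) := by
  have h1 : ∀ a b : Q, C.c a * C.c b = - (C.c b * C.c a) := fun a b =>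
    eq_neg_of_add_eq_zero_left (C.anti a b)
  show (C.c p * C.c q) * (C.c r * C.c s) = (C.c r * C.c s) * (C.c p * C.c q)
  calc (C.c p * C.c q) * (C.c r * C.c s) = C.c p * (C.c q * C.c r) * C.c s := by noncomm_ring
    _ = - ((C.c p * C.c r) * (C.c q * C.c s)) := by rw [h1 q r]; noncomm_ring
    _ = - (C.c r * (C.c p * C.c s) * C.c q) := by rw [h1 p r, h1 q s]; noncomm_ring
    _ = (C.c r * C.c s) * (C.c p * C.c q) := by rw [h1 p s]; noncomm_ring

theorem colp_A2_comm (Z Z' : Matrix Q Q ℂ) : Commute (colpA2 C Z) (colpA2 C Z') := by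
  unfold colpA2
  refine Commute.sum_left _ _ _ fun p _ => Commute.sum_left _ _ _ fun q _ => ?_
  refine Commute.sum_right _ _ _ fun r _ => Commute.sum_right _ _ _ fun s _ => ?_
  exact ((colp_cc_comm C p q r s).smul_left _).smul_right _

theorem colp_adj (A : Matrix ι ι ℂ) (y z : ι → ℂ) :
    star y ⬝ᵥ (Aᴴ).mulVec z = star (A.mulVec y) ⬝ᵥ z := by
  rw [Matrix.star_mulVec, Matrix.dotProduct_mulVec]

/-- squared norm -/
noncomputable def colpNrm (z : ι → ℂ) : ℝ := (star z ⬝ᵥ z).re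

omit [DecidableEq ι] in
theorem colp_nrm_eq (z : ι → ℂ) : star z ⬝ᵥ z = (colpNrm z : ℂ) := by
  unfold colpNrm
  apply Complex.ext
  · simp
  · simp only [dotProduct, Pi.star_apply, Complex.ofReal_im, Complex.im_sum]
    refine Finset.sum_eq_zero fun i _ => ?_
    simp [Complex.mul_im]
    ring

omit [DecidableEq ι] in
theorem colp_nrm_nonneg (z : ι → ℂ) : 0 ≤ colpNrm z := by
  unfold colpNrm
  simp only [dotProduct, Pi.star_apply, Complex.re_sum]
  refine Finset.sum_nonneg fun i _ => ?_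
  simp [Complex.mul_re]
  nlinarith [sq_nonneg (z i).re, sq_nonneg (z i).im]

theorem colp_nrm_pos (z : ι → ℂ) (hz : z ≠ 0) : 0 < colpNrm z := by
  rcases (colp_nrm_nonneg z).lt_or_eq with h | h
  · exact h
  · exfalso
    apply hz
    rw [← star_dot_self_eq_zero, colp_nrm_eq, ← h]
    simp

theorem colp_nrm_adj (A : Matrix ι ι ℂ) (y : ι → ℂ) :
    star y ⬝ᵥ (Aᴴ * A).mulVec y = (colpNrm (A.mulVec y) : ℂ) := by
  rw [← Matrix.mulVec_mulVec, colp_adj, colp_nrm_eq]

end CarAlg


variable {n : ℕ}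

theorem colp_star_uvec (i : Fin n) (s : Bool) : star (uvec i s) = uvec i (!s) := by
  ext p
  simp only [Pi.star_apply, uvec]
  split_ifs <;> simp_all

theorem colp_Hc_eq (x : Vec n) : Hc x = ∑ i, ((x i : ℂ) / 2) •
    (vecMulVec (uvec i false) (uvec i true) - vecMulVec (uvec i true) (uvec i false)) := by
  ext ⟨a, b⟩ ⟨a', b'⟩
  rw [rrt_Hc_apply, Matrix.sum_apply, Finset.sum_eq_single a]
  · by_cases h : a = a'
    · subst h
      fin_cases b <;> fin_cases b' <;>
        simp [uvec, vecMulVec_apply] <;> ring_nf <;> simp <;> ring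
    · simp [uvec, vecMulVec_apply, h, Ne.symm h]
  · intro i _ hi
    simp [uvec, vecMulVec_apply, Ne.symm hi]
  · simp

theorem colp_one_eq : (1 : Matrix (Ix n) (Ix n) ℂ) = ∑ i : Fin n, (1 / 2 : ℂ) •
    (vecMulVec (uvec i false) (uvec i true) + vecMulVec (uvec i true) (uvec i false)) := by
  ext ⟨a, b⟩ ⟨a', b'⟩
  rw [Matrix.sum_apply, Finset.sum_eq_single a]
  · by_cases h : a = a'
    · subst h
      fin_cases b <;> fin_cases b' <;>
        simp [uvec, vecMulVec_apply, Matrix.one_apply] <;> ring_nf <;> simp <;> ring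
    · simp [uvec, vecMulVec_apply, h, Ne.symm h, Matrix.one_apply]
  · intro i _ hi
    simp [uvec, vecMulVec_apply, Ne.symm hi]
  · simp


section Fock

variable {ι : Type} [Fintype ι] [DecidableEq ι] (C : Car (Ix n) ι)

theorem colp_dG_sum {κ : Type} (s : Finset κ) (X : κ → Matrix (Ix n) (Ix n) ℂ) :
    C.dG (∑ k ∈ s, X k) = ∑ k ∈ s, C.dG (X k) := by
  classical
  induction s using Finset.induction_on with
  | empty =>
    have := C.dG_smul 0 0
    simpa using this
  | insert a s ha ih => rw [Finset.sum_insert ha, Finset.sum_insert ha, C.dG_add, ih]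

theorem colp_dG_sub (X Y : Matrix (Ix n) (Ix n) ℂ) : C.dG (X - Y) = C.dG X - C.dG Y := by
  rw [sub_eq_add_neg, C.dG_add, ← neg_one_smul ℂ Y, C.dG_smul, neg_one_smul, ← sub_eq_add_neg]

/-- `‖c(u_{i,s}) y‖²` -/
noncomputable def colpP (y : ι → ℂ) (i : Fin n) (s : Bool) : ℝ :=
  colpNrm ((C.an (uvec i s)).mulVec y)

theorem colp_P_nonneg (y : ι → ℂ) (i : Fin n) (s : Bool) : 0 ≤ colpP C y i s := colp_nrm_nonneg _

theorem colp_cr_an_pair (y : ι → ℂ) (i : Fin n) (s : Bool) :
    star y ⬝ᵥ (C.cr (uvec i (!s)) * C.an (uvec i s)).mulVec y = (colpP C y i s : ℂ) := by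
  have h := colp_nrm_adj (C.an (uvec i s)) y
  rw [colp_an_conjTranspose, colp_star_uvec] at h
  exact h

theorem colp_P_le (y : ι → ℂ) (i : Fin n) (s : Bool) : colpP C y i s ≤ 2 * colpNrm y := by
  have h1 := C.an_cr (uvec i s) (uvec i (!s))
  rw [rex_uvec_dot, if_pos ⟨rfl, by cases s <;> simp⟩] at h1
  have h2 := colp_nrm_adj (C.cr (uvec i (!s))) y
  rw [colp_cr_conjTranspose, colp_star_uvec, Bool.not_not] at h2
  have h3 := colp_cr_an_pair C y i s
  have h4 : star y ⬝ᵥ ((2 : ℂ) • (1 : Matrix ι ι ℂ)).mulVec y = ((2 * colpNrm y : ℝ) : ℂ) := by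
    rw [Matrix.smul_mulVec, Matrix.one_mulVec, dotProduct_smul, colp_nrm_eq]
    push_cast
    rfl
  rw [← h1, Matrix.add_mulVec, dotProduct_add, h2, h3] at h4
  have h5 : colpNrm ((C.cr (uvec i (!s))).mulVec y) + colpP C y i s = 2 * colpNrm y := by
    exact_mod_cast h4
  linarith [colp_nrm_nonneg ((C.cr (uvec i (!s))).mulVec y)]

theorem colp_pair_Hc (y : ι → ℂ) (x : Vec n) :
    star y ⬝ᵥ (C.dG (Hc x)).mulVec y =
      ((∑ i, x i / 2 * (colpP C y i true - colpP C y i false) : ℝ) : ℂ) := by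
  rw [colp_Hc_eq, colp_dG_sum, Matrix.sum_mulVec, dotProduct_sum]
  push_cast
  refine Finset.sum_congr rfl fun i _ => ?_
  rw [C.dG_smul, colp_dG_sub, colp_dG_vecMulVec, colp_dG_vecMulVec, Matrix.smul_mulVec,
    Matrix.sub_mulVec, dotProduct_smul, dotProduct_sub]
  have h1 := colp_cr_an_pair C y i true
  have h2 := colp_cr_an_pair C y i false
  simp only [Bool.not_true, Bool.not_false] at h1 h2
  rw [h1, h2]
  rfl

theorem colp_pair_one (y : ι → ℂ) :
    star y ⬝ᵥ (C.dG 1).mulVec y =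
      ((∑ i : Fin n, 1 / 2 * (colpP C y i true + colpP C y i false) : ℝ) : ℂ) := by
  rw [colp_one_eq, colp_dG_sum, Matrix.sum_mulVec, dotProduct_sum]
  push_cast
  refine Finset.sum_congr rfl fun i _ => ?_
  rw [C.dG_smul, C.dG_add, colp_dG_vecMulVec, colp_dG_vecMulVec, Matrix.smul_mulVec,
    Matrix.add_mulVec, dotProduct_smul, dotProduct_add]
  have h1 := colp_cr_an_pair C y i true
  have h2 := colp_cr_an_pair C y i false
  simp only [Bool.not_true, Bool.not_false] at h1 h2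
  rw [h1, h2]
  rfl

/-- weight vectors of the Fock representation -/
def ColpWt (y : ι → ℂ) (χ : Vec n) : Prop :=
  ∀ x : Vec n, (C.dG (Hc x)).mulVec y = ((dot χ x : ℝ) : ℂ) • y

/-- homogeneous vectors -/
def ColpDeg (y : ι → ℂ) (d : ℝ) : Prop := (C.dG 1).mulVec y = (d : ℂ) • y

theorem colp_wt_coord (y : ι → ℂ) (χ : Vec n) (h : ColpWt C y χ) (i : Fin n) :
    χ i * colpNrm y = 1 / 2 * (colpP C y i true - colpP C y i false) := by
  have h1 := colp_pair_Hc C y (Pi.single i 1)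
  rw [h (Pi.single i 1), dotProduct_smul, colp_nrm_eq, smul_eq_mul] at h1
  have h2 : dot χ (Pi.single i 1) * colpNrm y =
      ∑ j, (Pi.single i 1 : Vec n) j / 2 * (colpP C y j true - colpP C y j false) := by
    exact_mod_cast h1
  have h3 : dot χ (Pi.single i 1) = χ i := by
    simp [dot, Pi.single_apply]
  rw [h3, Finset.sum_eq_single i] at h2
  · rw [h2]; simp
  · intro j _ hj
    simp [Pi.single_apply, hj]
  · simp

/-- (W), first half: the coordinates of a weight are at most `1` in absolute value -/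
theorem colp_W_coord (y : ι → ℂ) (hy : y ≠ 0) (χ : Vec n) (h : ColpWt C y χ) (i : Fin n) :
    |χ i| ≤ 1 := by
  have h1 := colp_wt_coord C y χ h i
  have h0 := colp_nrm_pos y hy
  have a1 := colp_P_le C y i true
  have a2 := colp_P_le C y i false
  have b1 := colp_P_nonneg C y i true
  have b2 := colp_P_nonneg C y i false
  rw [abs_le]
  constructor
  · by_contra hc
    push Not at hc
    nlinarith
  · by_contra hc
    push Not at hc
    nlinarith

/-- (W), second half: the `ℓ¹` norm of a weight is at most the degree -/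
theorem colp_W_sum (y : ι → ℂ) (hy : y ≠ 0) (χ : Vec n) (h : ColpWt C y χ) (d : ℝ)
    (hd : ColpDeg C y d) : ∑ i, |χ i| ≤ d := by
  have h0 := colp_nrm_pos y hy
  have h1 := colp_pair_one C y
  rw [hd, dotProduct_smul, colp_nrm_eq, smul_eq_mul] at h1
  have h2 : d * colpNrm y = ∑ i : Fin n, 1 / 2 * (colpP C y i true + colpP C y i false) := by
    exact_mod_cast h1
  have h3 : (∑ i, |χ i|) * colpNrm y ≤ d * colpNrm y := by
    rw [h2, Finset.sum_mul]
    refine Finset.sum_le_sum fun i _ => ?_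
    have h4 := colp_wt_coord C y χ h i
    have b1 := colp_P_nonneg C y i true
    have b2 := colp_P_nonneg C y i false
    rcases abs_cases (χ i) with ⟨e, _⟩ | ⟨e, _⟩ <;> rw [e] <;> nlinarith
  exact le_of_mul_le_mul_right h3 h0

/-- removing a vector which is present does not kill -/
theorem colp_an_ne (y : ι → ℂ) (hy : y ≠ 0) (χ : Vec n) (h : ColpWt C y χ) (i : Fin n) (s : Bool)
    (hs : χ i = - sgnB s) : (C.an (uvec i s)).mulVec y ≠ 0 := by
  intro h0
  have h1 := colp_wt_coord C y χ h i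
  have hp := colp_nrm_pos y hy
  have b1 := colp_P_nonneg C y i true
  have b2 := colp_P_nonneg C y i false
  have hz : colpP C y i s = 0 := by
    unfold colpP
    rw [h0]
    simp [colpNrm]
  rw [hs] at h1
  cases s
  · simp only [sgnB] at h1
    rw [hz] at h1
    simp at h1
    nlinarith
  · simp only [sgnB] at h1
    rw [hz] at h1
    simp at h1
    nlinarith


/-! ### commutators -/

theorem colp_A2_dG_skew (Z X : Matrix (Ix n) (Ix n) ℂ) (hX : Xᵀ = -X) :
    colpA2 C Z * C.dG X - C.dG X * colpA2 C Z = colpA2 C (Z * X - X * Z) := by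
  rw [colp_A2_dG, hX, neg_mul, sub_eq_add_neg]

/-- `Θ`, the contraction with the two-form of `H(h)` -/
noncomputable def colpTh (h : Vec n) : Matrix ι ι ℂ := colpA2 C (Hc h)

/-- the contraction with the two-form of a root vector -/
noncomputable def colpIo (β : RootD n) : Matrix ι ι ℂ := colpA2 C (rootVec β)

theorem colp_Th_A (h : Vec n) (β : RootD n) :
    colpTh C h * C.dG (rootVec β) - C.dG (rootVec β) * colpTh C h =
      ((dot β.vec h : ℝ) : ℂ) • colpIo C β := by
  unfold colpTh colpIo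
  rw [colp_A2_dG_skew C _ _ (isRootVec_rootVec β).1.1, (isRootVec_rootVec β).2 h, colp_A2_smul]

theorem colp_Io_H (β : RootD n) (x : Vec n) :
    C.dG (Hc x) * colpIo C β = colpIo C β * C.dG (Hc x) + ((dot β.vec x : ℝ) : ℂ) • colpIo C β := by
  have h1 := colp_A2_dG_skew C (rootVec β) (Hc x) (rrt_Hc_transpose x)
  have h2 : rootVec β * Hc x - Hc x * rootVec β = (-((dot β.vec x : ℝ) : ℂ)) • rootVec β := by
    rw [neg_smul, ← (isRootVec_rootVec β).2 x]; abel
  rw [h2, colp_A2_smul] at h1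
  unfold colpIo
  rw [neg_smul] at h1
  rw [sub_eq_iff_eq_add] at h1
  rw [h1]
  abel

theorem colp_Th_H (h x : Vec n) : Commute (C.dG (Hc x)) (colpTh C h) := by
  have h1 := colp_A2_dG_skew C (Hc h) (Hc x) (rrt_Hc_transpose x)
  rw [Hc_comm h x, sub_self, colp_A2_zero, sub_eq_zero] at h1
  exact h1.symm

theorem colp_A2_N (Z : Matrix (Ix n) (Ix n) ℂ) :
    C.dG 1 * colpA2 C Z = colpA2 C Z * C.dG 1 - (2 : ℂ) • colpA2 C Z := by
  have h1 := colp_A2_dG C Z 1
  rw [transpose_one, mul_one, one_mul, ← two_smul ℂ Z, colp_A2_smul] at h1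
  rw [← h1]
  abel

theorem colp_dG_N (X : Matrix (Ix n) (Ix n) ℂ) : Commute (C.dG 1) (C.dG X) := by
  have h1 := C.dG_bracket 1 X
  rw [one_mul, mul_one, sub_self] at h1
  have h0 : C.dG (0 : Matrix (Ix n) (Ix n) ℂ) = 0 := by
    have := C.dG_smul 0 0
    simpa using this
  rw [h0] at h1
  exact (sub_eq_zero.mp h1.symm)

theorem colp_A_H (β : RootD n) (x : Vec n) :
    C.dG (Hc x) * C.dG (rootVec β) =
      C.dG (rootVec β) * C.dG (Hc x) + ((dot β.vec x : ℝ) : ℂ) • C.dG (rootVec β) := by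
  have h1 := C.dG_bracket (Hc x) (rootVec β)
  rw [(isRootVec_rootVec β).2 x, C.dG_smul] at h1
  rw [h1]
  abel

theorem colp_dG_an (X : Matrix (Ix n) (Ix n) ℂ) (x : Ix n → ℂ) :
    C.dG X * C.an x - C.an x * C.dG X = - C.an (Xᵀ.mulVec x) := by
  have h := congrArg conjTranspose (C.dG_cr Xᴴ (star x))
  rw [conjTranspose_sub, conjTranspose_mul, conjTranspose_mul, C.dG_conjTranspose,
    conjTranspose_conjTranspose, colp_cr_conjTranspose, colp_cr_conjTranspose, star_star] at h
  have e : star (Xᴴ.mulVec (star x)) = Xᵀ.mulVec x := by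
    rw [Matrix.star_mulVec, star_star, conjTranspose_conjTranspose, Matrix.mulVec_transpose]
  rw [e] at h
  rw [← h]
  abel

theorem colp_an_H (i : Fin n) (s : Bool) (x : Vec n) :
    C.dG (Hc x) * C.an (uvec i s) =
      C.an (uvec i s) * C.dG (Hc x) + ((sgnB s * x i : ℝ) : ℂ) • C.an (uvec i s) := by
  have h1 := colp_dG_an C (Hc x) (uvec i s)
  rw [rrt_Hc_transpose, Matrix.neg_mulVec, rex_Hc_uvec] at h1
  have e : C.an (-(((sgnB s * x i : ℝ) : ℂ) • uvec i s)) =
      -(((sgnB s * x i : ℝ) : ℂ) • C.an (uvec i s)) := by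
    rw [← neg_smul, colp_an_smul, neg_smul]
  rw [e, neg_neg, sub_eq_iff_eq_add] at h1
  rw [h1]
  abel

/-! ### transport of weights and degrees -/

theorem colp_wt_Io (y : ι → ℂ) (χ : Vec n) (h : ColpWt C y χ) (β : RootD n) :
    ColpWt C ((colpIo C β).mulVec y) (χ + β.vec) := by
  intro x
  rw [Matrix.mulVec_mulVec, colp_Io_H, Matrix.add_mulVec, ← Matrix.mulVec_mulVec, h x,
    Matrix.mulVec_smul, Matrix.smul_mulVec, ← add_smul, dot_add_left]
  push_cast
  rfl

theorem colp_wt_A (y : ι → ℂ) (χ : Vec n) (h : ColpWt C y χ) (β : RootD n) :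
    ColpWt C ((C.dG (rootVec β)).mulVec y) (χ + β.vec) := by
  intro x
  rw [Matrix.mulVec_mulVec, colp_A_H, Matrix.add_mulVec, ← Matrix.mulVec_mulVec, h x,
    Matrix.mulVec_smul, Matrix.smul_mulVec, ← add_smul, dot_add_left]
  push_cast
  rfl

theorem colp_wt_an (y : ι → ℂ) (χ : Vec n) (h : ColpWt C y χ) (i : Fin n) (s : Bool) :
    ColpWt C ((C.an (uvec i s)).mulVec y) (χ + Pi.single i (sgnB s)) := by
  intro x
  rw [Matrix.mulVec_mulVec, colp_an_H, Matrix.add_mulVec, ← Matrix.mulVec_mulVec, h x,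
    Matrix.mulVec_smul, Matrix.smul_mulVec, ← add_smul, dot_add_left]
  have e : dot (Pi.single i (sgnB s)) x = sgnB s * x i := by
    simp [dot, Pi.single_apply]
  rw [e]
  push_cast
  rfl

theorem colp_wt_comm (y : ι → ℂ) (χ : Vec n) (h : ColpWt C y χ) (M : Matrix ι ι ℂ)
    (hM : ∀ x, Commute (C.dG (Hc x)) M) : ColpWt C (M.mulVec y) χ := by
  intro x
  rw [Matrix.mulVec_mulVec, (hM x).eq, ← Matrix.mulVec_mulVec, h x, Matrix.mulVec_smul]

theorem colp_deg_A2 (y : ι → ℂ) (d : ℝ) (h : ColpDeg C y d) (Z : Matrix (Ix n) (Ix n) ℂ) :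
    ColpDeg C ((colpA2 C Z).mulVec y) (d - 2) := by
  unfold ColpDeg at h ⊢
  rw [Matrix.mulVec_mulVec, colp_A2_N, Matrix.sub_mulVec, ← Matrix.mulVec_mulVec, h,
    Matrix.mulVec_smul, Matrix.smul_mulVec, ← sub_smul]
  push_cast
  rfl

theorem colp_deg_dG (y : ι → ℂ) (d : ℝ) (h : ColpDeg C y d) (X : Matrix (Ix n) (Ix n) ℂ) :
    ColpDeg C ((C.dG X).mulVec y) d := by
  unfold ColpDeg at h ⊢
  rw [Matrix.mulVec_mulVec, (colp_dG_N C X).eq, ← Matrix.mulVec_mulVec, h, Matrix.mulVec_smul]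

end Fock

section Fock2

variable {ι : Type} [Fintype ι] [DecidableEq ι] (C : Car (Ix n) ι)

theorem colp_Io_eq (β : RootD n) :
    colpIo C β = C.an (uvec β.i β.si) * C.an (uvec β.j β.sj) := by
  unfold colpIo rootVec
  rw [colp_A2_smul, sub_eq_add_neg, colp_A2_add, ← neg_one_smul ℂ (vecMulVec _ _), colp_A2_smul,
    colp_A2_vecMulVec, colp_A2_vecMulVec]
  have h := colp_an_anti C (uvec β.i β.si) (uvec β.j β.sj)
  have h' : C.an (uvec β.j β.sj) * C.an (uvec β.i β.si) =
      - (C.an (uvec β.i β.si) * C.an (uvec β.j β.sj)) := eq_neg_of_add_eq_zero_right h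
  rw [h']
  module

theorem colp_coords_of_dot (χ : Vec n) (β : RootD n) (hi : |χ β.i| ≤ 1) (hj : |χ β.j| ≤ 1)
    (h : dot χ β.vec = -2) : χ β.i = - sgnB β.si ∧ χ β.j = - sgnB β.sj := by
  rw [sc_dot_vec] at h
  rw [abs_le] at hi hj
  rcases sc_sgnB_cases β.si with e1 | e1 <;> rcases sc_sgnB_cases β.sj with e2 | e2 <;>
    rw [e1, e2] at h ⊢ <;> constructor <;> linarith [hi.1, hi.2, hj.1, hj.2]

theorem colp_Io_ne (y : ι → ℂ) (hy : y ≠ 0) (χ : Vec n) (h : ColpWt C y χ) (β : RootD n)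
    (hβ : dot χ β.vec = -2) : (colpIo C β).mulVec y ≠ 0 := by
  obtain ⟨e1, e2⟩ := colp_coords_of_dot χ β (colp_W_coord C y hy χ h _) (colp_W_coord C y hy χ h _) hβ
  rw [colp_Io_eq, ← Matrix.mulVec_mulVec]
  have h1 := colp_an_ne C y hy χ h β.j β.sj e2
  have h2 := colp_wt_an C y χ h β.j β.sj
  refine colp_an_ne C _ h1 _ h2 β.i β.si ?_
  rw [Pi.add_apply, Pi.single_apply, if_neg β.ne, add_zero, e1]

theorem colp_l1_add (χ : Vec n) (β : RootD n) :
    ∑ k, |(χ + β.vec) k| = ∑ k, |χ k| + (|χ β.i + sgnB β.si| - |χ β.i|)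
      + (|χ β.j + sgnB β.sj| - |χ β.j|) := by
  have e : ∀ k, |(χ + β.vec) k| = |χ k| + (if k = β.i then |χ β.i + sgnB β.si| - |χ β.i| else 0)
      + (if k = β.j then |χ β.j + sgnB β.sj| - |χ β.j| else 0) := by
    intro k
    by_cases h1 : k = β.i
    · subst h1
      rw [Pi.add_apply, scw_vec_i, if_pos rfl, if_neg β.ne]
      ring
    · by_cases h2 : k = β.j
      · subst h2
        rw [Pi.add_apply, scw_vec_j, if_pos rfl, if_neg h1]
        ring
      · rw [Pi.add_apply, scw_vec_other β h1 h2, if_neg h1, if_neg h2]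
        simp
  simp only [e, Finset.sum_add_distrib, Finset.sum_ite_eq', Finset.mem_univ, if_true]

/-- `Io_{γ_r} ⋯ Io_{γ_1} a` -/
noncomputable def colpIoL (M : List (RootD n)) (a : ι → ℂ) : ι → ℂ :=
  M.foldl (fun a γ => (colpIo C γ).mulVec a) a

theorem colp_IoL_nil (a : ι → ℂ) : colpIoL C [] a = a := rfl

theorem colp_IoL_cons (γ : RootD n) (M : List (RootD n)) (a : ι → ℂ) :
    colpIoL C (γ :: M) a = colpIoL C M ((colpIo C γ).mulVec a) := rfl

theorem colp_IoL_smul (M : List (RootD n)) (s : ℂ) (a : ι → ℂ) :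
    colpIoL C M (s • a) = s • colpIoL C M a := by
  induction M generalizing a with
  | nil => rfl
  | cons γ M ih => rw [colp_IoL_cons, colp_IoL_cons, Matrix.mulVec_smul, ih]

/-- the vector `e_δ` -/
theorem colp_IoL_spec (M : List (RootD n)) : ∀ (y : ι → ℂ) (a : Vec n), y ≠ 0 → ColpWt C y a →
    ColpDeg C y (∑ i, |a i|) → (∀ γ ∈ M, dot a γ.vec = -2) →
    M.Pairwise (fun γ γ' => dot γ.vec γ'.vec = 0) →
    colpIoL C M y ≠ 0 ∧ ColpWt C (colpIoL C M y) (a + (M.map RootD.vec).sum) ∧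
      ColpDeg C (colpIoL C M y) (∑ i, |(a + (M.map RootD.vec).sum) i|) := by
  induction M with
  | nil =>
    intro y a hy hw hd _ _
    simpa [colp_IoL_nil] using ⟨hy, hw, hd⟩
  | cons γ M ih =>
    intro y a hy hw hd hM hp
    rw [List.pairwise_cons] at hp
    have hγ := hM γ List.mem_cons_self
    obtain ⟨e1, e2⟩ := colp_coords_of_dot a γ (colp_W_coord C y hy a hw _)
      (colp_W_coord C y hy a hw _) hγ
    have hd' : ColpDeg C ((colpIo C γ).mulVec y) (∑ i, |(a + γ.vec) i|) := by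
      have h1 := colp_deg_A2 C y _ hd (rootVec γ)
      have h2 : ∑ i, |(a + γ.vec) i| = ∑ i, |a i| - 2 := by
        rw [colp_l1_add, e1, e2]
        rcases sc_sgnB_cases γ.si with e | e <;> rcases sc_sgnB_cases γ.sj with e' | e' <;>
          rw [e, e'] <;> norm_num <;> ring
      rw [h2]
      exact h1
    have := ih _ (a + γ.vec) (colp_Io_ne C y hy a hw γ hγ) (colp_wt_Io C y a hw γ) hd'
      (fun g hg => by
        rw [dot_add_left, hM g (List.mem_cons_of_mem _ hg), hp.1 g hg, add_zero]) hp.2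
    rw [colp_IoL_cons, List.map_cons, List.sum_cons, ← add_assoc]
    exact this

end Fock2

end Claimed.Agent.R282
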