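import Claimed.Agent.R282.Col.R.ExtFock
import Claimed.Agent.R282.Rep.R.Words

/-!
# Row 282, Col, layer (R), exterior column: KILL half of the core (helper132, prefix `colq_`)

`e` = any vector of weight `δ` and degree `∑ |δ i|` of the Fock space, `u = (Θᴴ)^r e`.  Then `u` has weight `δ` (`colq_wt`) and
`e_α^(c+1) u = 0` for every root `α` with `⟨h, α⟩ = c ∈ ℕ`, `0 ≤ ⟨h + δ, α⟩` (`colq_kill`):
* `c ≥ 1`: the weight `δ + (c+1) α` has a coordinate of absolute value `> 1` (`colp_W_coord`);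
* `c = 0`: `e_α` commutes with `Θᴴ` (adjoint of `colp_Th_A`), and `e_α e` of weight `δ + α`, degree `∑ |δ i|` vanishes (`colp_W_coord`, `colp_W_sum`).
-/

set_option autoImplicit false

namespace Claimed.Agent.R282

open Matrix

variable {n : ℕ} {ι : Type} [Fintype ι] [DecidableEq ι] (C : Car (Ix n) ι)

theorem colq_ThH_H (h x : Vec n) : Commute (C.dG (Hc x)) (colpTh C h)ᴴ := by
  have h1 := congrArg conjTranspose (colp_Th_H C h x).eq
  rw [conjTranspose_mul, conjTranspose_mul, C.dG_conjTranspose, Hc_conjTranspose] at h1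
  exact h1.symm

/-- `(Θᴴ)^r` preserves weights -/
theorem colq_wt (h δ : Vec n) (e : ι → ℂ) (hw : ColpWt C e δ) (r : ℕ) :
    ColpWt C ((((colpTh C h)ᴴ) ^ r).mulVec e) δ :=
  colp_wt_comm C e δ hw _ fun x => (colq_ThH_H C h x).pow_right r

/-- powers of a root vector shift the weight -/
theorem colq_wt_pow (y : ι → ℂ) (χ : Vec n) (hw : ColpWt C y χ) (β : RootD n) (k : ℕ) :
    ColpWt C (((C.dG (rootVec β)) ^ k).mulVec y) (χ + (k : ℝ) • β.vec) := by
  induction k with
  | zero => simpa using hw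
  | succ k ih =>
    rw [pow_succ', ← Matrix.mulVec_mulVec]
    have h1 := colp_wt_A C _ _ ih β
    have e : χ + ((k + 1 : ℕ) : ℝ) • β.vec = χ + (k : ℝ) • β.vec + β.vec := by
      push_cast
      rw [add_smul, one_smul, add_assoc]
    rw [e]
    exact h1

/-- `e_α` commutes with `Θᴴ` if `⟨h, α⟩ = 0` -/
theorem colq_A_ThH (h : Vec n) (α : RootD n) (h0 : dot h α.vec = 0) :
    Commute (C.dG (rootVec α)) (colpTh C h)ᴴ := by
  have h1 := colp_Th_A C h α.neg
  have h2 : dot α.neg.vec h = 0 := by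
    rw [rootD_neg_vec, dot_neg_left, dot_comm, h0, neg_zero]
  rw [h2] at h1
  simp only [Complex.ofReal_zero, zero_smul] at h1
  have h3 := congrArg conjTranspose (sub_eq_zero.1 h1)
  rw [conjTranspose_mul, conjTranspose_mul, C.dG_conjTranspose, rootVec_conjTranspose] at h3
  have h4 : α.neg.neg = α := by
    cases α; simp [RootD.neg]
  have h5 : C.dG (-rootVec α) = - C.dG (rootVec α) := by
    have := C.dG_smul (-1) (rootVec α)
    simpa using this
  rw [h4, h5, neg_mul, mul_neg, neg_inj] at h3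
  exact h3

theorem colq_sgn_sq (s : Bool) : sgnB s * sgnB s = 1 := by
  cases s <;> simp [sgnB]

theorem colq_sgn_abs (s : Bool) : |sgnB s| = 1 := by
  cases s <;> simp [sgnB]

theorem colq_vec_i (α : RootD n) : α.vec α.i = sgnB α.si := by
  simp [RootD.vec, α.ne]

theorem colq_vec_j (α : RootD n) : α.vec α.j = sgnB α.sj := by
  simp [RootD.vec, α.ne.symm]

/-- `|x + t s| ≤ 1`, `s = ± 1` : `s x ≤ 1 - t` -/
theorem colq_coord (s : Bool) (x t : ℝ) (h : |x + t * sgnB s| ≤ 1) : sgnB s * x ≤ 1 - t := by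
  have h1 := abs_le.1 h
  cases s <;> simp [sgnB] at h1 ⊢ <;> linarith [h1.1, h1.2]

/-- the pairing of a weight `χ` with a root `α` such that `χ + t α` is a weight, too -/
theorem colq_pair_le (z : ι → ℂ) (hz : z ≠ 0) (χ : Vec n) (α : RootD n) (t : ℝ)
    (hw : ColpWt C z (χ + t • α.vec)) :
    sgnB α.si * χ α.i ≤ 1 - t ∧ sgnB α.sj * χ α.j ≤ 1 - t := by
  have h1 := colp_W_coord C z hz _ hw α.i
  have h2 := colp_W_coord C z hz _ hw α.j
  simp only [Pi.add_apply, Pi.smul_apply, smul_eq_mul, colq_vec_i, colq_vec_j] at h1 h2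
  exact ⟨colq_coord _ _ _ h1, colq_coord _ _ _ h2⟩

/-- a vector of weight `δ` and minimal degree is killed by `e_α` if `0 ≤ ⟨δ, α⟩` -/
theorem colq_min_kill (δ : Vec n) (e : ι → ℂ) (hw : ColpWt C e δ)
    (hdeg : ColpDeg C e (∑ i, |δ i|)) (α : RootD n) (hd : 0 ≤ dot δ α.vec) :
    (C.dG (rootVec α)).mulVec e = 0 := by
  by_contra hne
  have hw1 := colp_wt_A C e δ hw α
  have hw1' : ColpWt C ((C.dG (rootVec α)).mulVec e) (δ + (1 : ℝ) • α.vec) := by
    rw [one_smul]; exact hw1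
  obtain ⟨a1, a2⟩ := colq_pair_le C _ hne δ α 1 hw1'
  rw [dot_comm, rrt_dot_vec] at hd
  have b1 : sgnB α.si * δ α.i = 0 := by linarith
  have b2 : sgnB α.sj * δ α.j = 0 := by linarith
  have c1 : δ α.i = 0 := by
    have := congrArg (fun t => sgnB α.si * t) b1
    simpa [← mul_assoc, colq_sgn_sq] using this
  have c2 : δ α.j = 0 := by
    have := congrArg (fun t => sgnB α.sj * t) b2
    simpa [← mul_assoc, colq_sgn_sq] using this
  have h3 := colp_W_sum C _ hne _ hw1 _ (colp_deg_dG C e _ hdeg _)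
  have h4 : ∀ k, |(δ + α.vec) k| = |δ k| + |α.vec k| := by
    intro k
    by_cases hk : k = α.i
    · subst hk; simp [c1]
    · by_cases hk' : k = α.j
      · subst hk'; simp [c2]
      · simp [RootD.vec, hk, hk']
  simp only [h4, Finset.sum_add_distrib] at h3
  have h5 : |α.vec α.i| ≤ ∑ k, |α.vec k| :=
    Finset.single_le_sum (f := fun k => |α.vec k|) (fun k _ => abs_nonneg _) (Finset.mem_univ _)
  rw [colq_vec_i, colq_sgn_abs] at h5
  linarith

/-- **KILL half of the core** -/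
theorem colq_kill (h δ : Vec n) (e : ι → ℂ) (hw : ColpWt C e δ) (hdeg : ColpDeg C e (∑ i, |δ i|))
    (r : ℕ) (α : RootD n) (c : ℕ) (hc : dot h α.vec = c) (hd : 0 ≤ dot (h + δ) α.vec) :
    ((C.dG (rootVec α)) ^ (c + 1)).mulVec ((((colpTh C h)ᴴ) ^ r).mulVec e) = 0 := by
  rw [dot_add_left, hc] at hd
  rcases Nat.eq_zero_or_pos c with rfl | hpos
  · have h0 : dot h α.vec = 0 := by simpa using hc
    rw [zero_add, pow_one, Matrix.mulVec_mulVec, ((colq_A_ThH C h α h0).pow_right r).eq,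
      ← Matrix.mulVec_mulVec, colq_min_kill C δ e hw hdeg α (by simpa using hd), Matrix.mulVec_zero]
  · by_contra hne
    have hw1 := colq_wt_pow C _ δ (colq_wt C h δ e hw r) α (c + 1)
    obtain ⟨a1, a2⟩ := colq_pair_le C _ hne δ α _ hw1
    rw [dot_comm, rrt_dot_vec] at hd
    have hc1 : (1 : ℝ) ≤ c := by exact_mod_cast hpos
    push_cast at a1 a2
    linarith

end Claimed.Agent.R282
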