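import Claimed.Agent.R282.Col.R.Defs
import Claimed.Agent.R282.Col.FoldLeaves

/-!
# Row 282, Col, layer (R): extremal vectors (toolkit; statements by helper216)

`e_β = R.op (rootVec β)`; `e_β^* = - e_(-β)` (`rootVec_conjTranspose`, `op_adjoint`), `[e_β, e_β^*] = op (Hc β.vec)` (`rootVec_bracket`, `op_bracket`).  `β` is ANY root in (X2)-(X4) (positive or not).
Weyl states: `IsWf f` (`f = w.act`), calculus in `Col/FoldW.lean`, `Col/FoldR.lean`, `Sched/Weyl.lean` (`sc_*`), `S2AB/PL/Basic.lean` (`pl_*`).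

LEAVES
* L-COL-X0 `colX_induction` (~80 l): strong induction on `colF_meas f` (`colF_meas_lt`).  If no positive root has `(f ρ)·β < 0` then `f ρ` is dominant (`pl_dom_iff`), so `f ρ = ρ` (`pl_dom_unique`) and `f = id`
  (`f = w.act`; `w.act ρ = ρ` with `ρ = (n-1, …, 0)` injective forces `w.σ = 1`, `w.s i = false` for `i` with `ρ i ≠ 0`, and the last sign by `w.even`).
* L-COL-X1 `colX_mult`, `colX_exists`, `colX_unique`, `colX_kill` (~200 l): `θ = halfV L` (`rep_hw_dominant`), `rep_mult_weyl`, `rep_top`.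
  `colX_kill`: otherwise `f θ + β` is a weight of `cyc v` (`wt_shift`, `cyc_inv`); `β.vec = f z`, `z` a root vector (`colF_wf_root_inv`); `f θ + β = f (θ + z)`; so `θ + z` is a weight (`rep_mult_weyl`), `= halfV γ` with `InQplus (L - γ)`,
  so `dot z ρ ≤ 0` (every `posRoot2` has positive pairing with `ρ`); but `dot z ρ = dot (f z) (f ρ) = dot β.vec (f ρ) > 0`.
* L-COL-X2 `colX_sl2_rec`, `colX_sl2`, `colX_sl2_int` (~250 l): see the docstrings.
* L-COL-X3 `colX_step` (~100 l): `colX_kill` for `β.neg`, `colX_sl2_int`, `colX_sl2`, `colX_pow_wt`, `cyc_inv`; `refl β κ = κ + m β`.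
* L-COL-X4 `colX_kron_op`, `colX_kron_pow`, `colX_tmul_*` (~200 l).
* L-COL-X5 `colX_kron` (~200 l): see the docstring.
-/

set_option autoImplicit false

namespace Claimed.Agent.R282

open Matrix

variable {n : ℕ}
variable {ι ι' : Type} [Fintype ι] [DecidableEq ι] [Fintype ι'] [DecidableEq ι']

/-! ## (X0) induction on Weyl states -/

/-- a Weyl element which fixes `ρ` is the identity -/
theorem colX_act_rho (w : WD n) (h : w.act (rhoV n) = rhoV n) : w.act = fun x => x := by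
  have hnn : ∀ i : Fin n, (0 : ℝ) ≤ rhoV n i := by
    intro i
    have : ((i : ℕ) : ℝ) + 1 ≤ (n : ℝ) := by exact_mod_cast i.2
    unfold rhoV
    linarith
  have habs : ∀ b : Bool, |sgnB b| = 1 := by
    intro b
    cases b <;> simp [sgnB]
  have h1 : ∀ i : Fin n, sgnB (w.s i) * rhoV n (w.σ.symm i) = rhoV n i := fun i => congrFun h i
  have hσ : ∀ i : Fin n, w.σ.symm i = i := by
    intro i
    have h2 := congrArg abs (h1 i)
    rw [abs_mul, habs, one_mul, abs_of_nonneg (hnn _), abs_of_nonneg (hnn _)] at h2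
    unfold rhoV at h2
    have h3 : ((w.σ.symm i : ℕ) : ℝ) = ((i : ℕ) : ℝ) := by linarith
    exact Fin.ext (by exact_mod_cast h3)
  have hlast : ∀ i : Fin n, w.s i = true → (i : ℕ) + 1 = n := by
    intro i hi
    have h2 := h1 i
    rw [hσ, hi] at h2
    have h3 : rhoV n i = 0 := by
      simp only [sgnB, if_true] at h2
      linarith
    unfold rhoV at h3
    have h4 : ((i : ℕ) : ℝ) + 1 = (n : ℝ) := by linarith
    exact_mod_cast h4
  have hs : ∀ i : Fin n, w.s i = false := by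
    by_contra hcon
    push Not at hcon
    obtain ⟨i₀, hi₀⟩ := hcon
    have hi₀' : w.s i₀ = true := by
      cases hh : w.s i₀
      · exact absurd hh hi₀
      · rfl
    have hf : (Finset.univ.filter fun i => w.s i = true) = {i₀} := by
      ext j
      simp only [Finset.mem_filter, Finset.mem_univ, true_and, Finset.mem_singleton]
      constructor
      · intro hj
        exact Fin.ext (by have := hlast j hj; have := hlast i₀ hi₀'; omega)
      · rintro rfl
        exact hi₀'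
    have hev := w.even
    rw [hf, Finset.card_singleton] at hev
    exact absurd hev (by decide)
  funext x i
  show sgnB (w.s i) * x (w.σ.symm i) = x i
  rw [hσ, hs]
  simp [sgnB]

theorem colX_induction (P : (Vec n → Vec n) → Prop) (h0 : P (fun x => x))
    (hs : ∀ (f : Vec n → Vec n) (β : RootD n), IsWf f → β.Pos → dot (f (rhoV n)) β.vec < 0 →
      P (fun x => refl β (f x)) → P f) (f : Vec n → Vec n) (hf : IsWf f) : P f := by
  induction hk : colF_meas f using Nat.strong_induction_on generalizing f with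
  | _ k ih =>
    by_cases hex : ∃ β : RootD n, β.Pos ∧ dot (f (rhoV n)) β.vec < 0
    · obtain ⟨β, hβ, hneg⟩ := hex
      have hβ' : 0 < dot (rhoV n) β.vec := by
        rw [dot_comm]
        exact hβ
      refine hs f β hf hβ hneg (ih _ ?_ _ (colF_wf_refl β f hf) rfl)
      rw [← hk]
      exact colF_meas_lt f hf β hβ' hneg
    · push Not at hex
      obtain ⟨w, rfl⟩ := hf
      have hd : Dom (w.act (rhoV n)) := by
        rw [pl_dom_iff]
        intro β hβ
        exact hex β (by rw [RootD.Pos, dot_comm]; exact hβ)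
      rw [colX_act_rho w (pl_dom_unique w _ pl_rho_dom hd)]
      exact h0

/-! ## (X1) extremal weight spaces are lines -/

/-- sums of positive roots pair nonnegatively with dominant vectors -/
theorem colX1_dot_qplus (x : Fin n → ℤ) (hx : InQplus x) (y : Vec n) (hy : Dom y) :
    0 ≤ dot (halfV x) y := by
  obtain ⟨c, rfl⟩ := hx
  have h0 : halfV (0 : Fin n → ℤ) = 0 := by
    funext i; simp [halfV]
  apply Finset.sum_induction _ (fun x : Fin n → ℤ => 0 ≤ dot (halfV x) y)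
  · intro a b ha hb
    rw [halfV_add, sc_dot_add_left]
    exact add_nonneg ha hb
  · rw [h0, sc_dot_zero_left]
  · intro r _
    have h1 : 0 ≤ dot (halfV (Claims.C0456.posRoot2 r.1.1 r.1.2.1 r.1.2.2)) y := by
      rw [halfV_posRoot2 _ _ r.2, rrt_dot_vec]
      have h2 := abs_le.1 (hy _ _ r.2)
      cases r.1.2.2 <;> simp [sgnB] <;> linarith [h2.1, h2.2]
    induction c r with
    | zero => rw [zero_smul, h0, sc_dot_zero_left]
    | succ k ih =>
      rw [succ_nsmul, halfV_add, sc_dot_add_left]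
      exact add_nonneg ih h1

theorem colX1_dom_add (x y : Vec n) (hx : Dom x) (hy : Dom y) : Dom (x + y) := by
  intro i j hij
  exact (abs_add_le _ _).trans (add_le_add (hx i j hij) (hy i j hij))

theorem colX1_dom_half (L : Fin n → ℤ) (hL : Claims.C0456.IsDominantWeight2 L) : Dom (halfV L) := by
  intro i j hij
  have h2 := hL.2 i j hij
  have h3 : |(L j : ℝ)| ≤ (L i : ℝ) := by exact_mod_cast h2
  unfold halfV
  rw [abs_div, abs_of_pos (by norm_num : (0 : ℝ) < 2)]
  linarith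

/-- the highest weight is dominant -/
theorem colX1_hw_dom (hn : 2 ≤ n) (R : StarRep Ty.D n ι) (v : ι → ℂ) (θ : Vec n) (h : IsHW R v θ) :
    Dom θ := by
  obtain ⟨L, hL, rfl⟩ := rep_hw_dominant hn R v θ h
  exact colX1_dom_half L hL

/-- all weights of `V(θ)` have norm at most `|θ|` -/
theorem colX1_norm (hn : 2 ≤ n) (R : StarRep Ty.D n ι) (v : ι → ℂ) (θ : Vec n) (h : IsHW R v θ)
    (χ : Vec n) (hχ : R.mult (R.cyc v) χ ≠ 0) : dot χ χ ≤ dot θ θ := by
  obtain ⟨L, hL, rfl⟩ := rep_hw_dominant hn R v θ h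
  obtain ⟨u, hu⟩ := sc_exists_dom χ
  have h1 : R.mult (R.cyc v) (u.act χ) ≠ 0 := by
    rw [rep_mult_weyl R _ (cyc_inv R v) u χ]; exact hχ
  obtain ⟨γ, hγ, hq⟩ := (rep_top R v L h).2 _ h1
  have h4 := colX1_dot_qplus _ hq _ (colX1_dom_add _ _ (colX1_dom_half L hL) hu)
  rw [halfV_sub, ← hγ, sc_dot_sub_left, sc_dot_add_right, sc_dot_add_right,
    sc_dot_comm (u.act χ) (halfV L), sc_dot_WD_act] at h4
  linarith

/-- a nonzero weight vector of `cyc v` witnesses a nonzero multiplicity -/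
theorem colX1_mult_ne (R : StarRep Ty.D n ι) (S : Submodule ℂ (ι → ℂ)) (χ : Vec n) (a : ι → ℂ)
    (ha : a ∈ S) (hw : a ∈ R.wt χ) (h0 : a ≠ 0) : R.mult S χ ≠ 0 := by
  unfold StarRep.mult
  intro h
  rw [Submodule.finrank_eq_zero] at h
  have h1 : a ∈ S ⊓ R.wt χ := ⟨ha, hw⟩
  rw [h] at h1
  exact h0 ((Submodule.mem_bot ℂ).1 h1)

theorem colX_mult (hn : 2 ≤ n) (R : StarRep Ty.D n ι) (v : ι → ℂ) (θ : Vec n) (h : IsHW R v θ)
    (f : Vec n → Vec n) (hf : IsWf f) : R.mult (R.cyc v) (f θ) = 1 := by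
  obtain ⟨w, rfl⟩ := hf
  obtain ⟨L, hL, rfl⟩ := rep_hw_dominant hn R v θ h
  rw [rep_mult_weyl R _ (cyc_inv R v) w]
  exact (rep_top R v L h).1

theorem colX_exists (hn : 2 ≤ n) (R : StarRep Ty.D n ι) (v : ι → ℂ) (θ : Vec n) (h : IsHW R v θ)
    (f : Vec n → Vec n) (hf : IsWf f) : ∃ y, ColExtr R v θ f y := by
  have h1 := colX_mult hn R v θ h f hf
  unfold StarRep.mult at h1
  obtain ⟨y, hy0, -⟩ := finrank_eq_one_iff'.1 h1
  exact ⟨y.1, fun e => hy0 (Subtype.ext e), y.2.1, y.2.2⟩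

theorem colX_unique (hn : 2 ≤ n) (R : StarRep Ty.D n ι) (v : ι → ℂ) (θ : Vec n) (h : IsHW R v θ)
    (f : Vec n → Vec n) (hf : IsWf f) (y y' : ι → ℂ) (hy : ColExtr R v θ f y)
    (hy' : ColExtr R v θ f y') : ∃ c : ℂ, c ≠ 0 ∧ y' = c • y := by
  have h1 := colX_mult hn R v θ h f hf
  unfold StarRep.mult at h1
  have h2 := (finrank_eq_one_iff_of_nonzero' (⟨y, hy.2.1, hy.2.2⟩ : ↥(R.cyc v ⊓ R.wt (f θ)))
    (fun e => hy.1 (congrArg Subtype.val e))).1 h1 ⟨y', hy'.2.1, hy'.2.2⟩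
  obtain ⟨c, hc⟩ := h2
  have hc' : c • y = y' := congrArg Subtype.val hc
  refine ⟨c, ?_, hc'.symm⟩
  rintro rfl
  exact hy'.1 (by rw [← hc', zero_smul])

/-- `f⁻¹ β > 0` : `e_β` kills the extremal vector -/
theorem colX_kill (hn : 2 ≤ n) (R : StarRep Ty.D n ι) (v : ι → ℂ) (θ : Vec n) (h : IsHW R v θ)
    (f : Vec n → Vec n) (hf : IsWf f) (y : ι → ℂ) (hy : ColExtr R v θ f y) (β : RootD n)
    (hβ : 0 < dot (f (rhoV n)) β.vec) : R.op (rootVec β) y = 0 := by
  by_contra hne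
  have hpair : 0 ≤ dot (f θ) β.vec := by
    by_contra hlt
    have := colF_down_of f hf β θ (colX1_hw_dom hn R v θ h) (not_le.1 hlt)
    linarith
  have h3 := colX1_norm hn R v θ h _ (colX1_mult_ne R _ _ _
    (cyc_inv R v _ (isRootVec_rootVec β).1 _ hy.2.1) (wt_shift R _ β _ hy.2.2) hne)
  rw [sc_dot_add_left, sc_dot_add_right, sc_dot_add_right, (colF_wf_lin f hf).2.2, sc_vec_dot_self,
    sc_dot_comm β.vec (f θ)] at h3
  linarith

/-! ## (X2) `sl2` -/

theorem colX_pow_wt (R : StarRep Ty.D n ι) (β : RootD n) (κ : Vec n) (b : ι → ℂ) (hb : b ∈ R.wt κ)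
    (k : ℕ) : ((R.op (rootVec β)) ^ k) b ∈ R.wt (κ + (k : ℝ) • β.vec) := by
  induction k with
  | zero => simpa using hb
  | succ k ih =>
    rw [pow_succ', Module.End.mul_apply]
    have h1 := wt_shift R _ β _ ih
    have e : κ + ((k + 1 : ℕ) : ℝ) • β.vec = κ + (k : ℝ) • β.vec + β.vec := by
      push_cast
      rw [add_smul, one_smul, add_assoc]
    rw [e]
    exact h1

theorem colX_rsmul (r : ℝ) (a : ι → ℂ) : r • a = (r : ℂ) • a := by
  funext i
  simp

/-- `e_(-β) e_β = e_β e_(-β) + h_β` -/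
theorem colX_comm (R : StarRep Ty.D n ι) (β : RootD n) (a : ι → ℂ) :
    R.op (rootVec β.neg) (R.op (rootVec β) a) =
      R.op (rootVec β) (R.op (rootVec β.neg) a) + R.op (Hc β.vec) a := by
  have h1 := op_bracket R (rootVec β) (rootVec β)ᴴ (isRootVec_rootVec β).1
    (inG_conjTranspose _ (isRootVec_rootVec β).1) a
  rw [rootVec_bracket] at h1
  have h2 : ∀ x : ι → ℂ, R.op (rootVec β)ᴴ x = - R.op (rootVec β.neg) x := by
    intro x
    rw [rootVec_conjTranspose, op_apply, op_apply, map_neg, Matrix.neg_mulVec]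
  rw [h2, h2, map_neg] at h1
  rw [h1]
  abel

/-- `e^* e^(k+1) b = (k+1) (c - k) e^k b` for `e^* b = 0`, `b` of weight `κ`, `c = - ⟨κ, β⟩`; in terms of `e_(-β) = - e^*`.
(induction on `k`: `e_(-β) e = e e_(-β) + [e_(-β), e]`, `[e_β, e_(-β)] = - op (Hc β.vec)`) -/
theorem colX_sl2_rec (R : StarRep Ty.D n ι) (β : RootD n) (κ : Vec n) (b : ι → ℂ) (hb : b ∈ R.wt κ)
    (hk : R.op (rootVec β.neg) b = 0) (k : ℕ) :
    R.op (rootVec β.neg) (((R.op (rootVec β)) ^ (k + 1)) b) =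
      (((k : ℝ) + 1) * (dot κ β.vec + k) : ℝ) • ((R.op (rootVec β)) ^ k) b := by
  induction k with
  | zero =>
    rw [zero_add, pow_one, pow_zero, colX_comm, hk, map_zero, zero_add, (mem_wt R κ b).1 hb,
      colX_rsmul]
    simp
  | succ k ih =>
    have hw := colX_pow_wt R β κ b hb (k + 1)
    rw [pow_succ' _ (k + 1), Module.End.mul_apply, colX_comm, ih, (mem_wt R _ _).1 hw, colX_rsmul,
      colX_rsmul, map_smul, ← Module.End.mul_apply, ← pow_succ', ← add_smul, dot_add_left,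
      dot_smul_left, sc_vec_dot_self]
    congr 1
    push_cast
    ring

theorem colX_norm_rec (R : StarRep Ty.D n ι) (β : RootD n) (κ : Vec n) (b : ι → ℂ) (hb : b ∈ R.wt κ)
    (hk : R.op (rootVec β.neg) b = 0) (k : ℕ) :
    star (((R.op (rootVec β)) ^ (k + 1)) b) ⬝ᵥ ((R.op (rootVec β)) ^ (k + 1)) b =
      ((-(((k : ℝ) + 1) * (dot κ β.vec + k)) : ℝ) : ℂ) *
        (star (((R.op (rootVec β)) ^ k) b) ⬝ᵥ ((R.op (rootVec β)) ^ k) b) := by
  have h2 : ∀ x : ι → ℂ, R.op (rootVec β)ᴴ x = - R.op (rootVec β.neg) x := by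
    intro x
    rw [rootVec_conjTranspose, op_apply, op_apply, map_neg, Matrix.neg_mulVec]
  conv_lhs =>
    arg 1
    rw [pow_succ', Module.End.mul_apply]
  rw [op_adjoint R _ (isRootVec_rootVec β).1, h2, colX_sl2_rec R β κ b hb hk k, colX_rsmul,
    dotProduct_neg, dotProduct_smul, smul_eq_mul]
  push_cast
  ring

/-- `‖e^(k+1) b‖² = (k+1) (m - k) ‖e^k b‖²` : so `e^k b ≠ 0` for `k ≤ m` and `e^(m+1) b = 0` -/
theorem colX_sl2 (R : StarRep Ty.D n ι) (β : RootD n) (κ : Vec n) (b : ι → ℂ) (hb : b ∈ R.wt κ)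
    (hk : R.op (rootVec β.neg) b = 0) (m : ℕ) (hm : dot κ β.vec = -(m : ℝ)) :
    ((R.op (rootVec β)) ^ (m + 1)) b = 0 ∧ (b ≠ 0 → ((R.op (rootVec β)) ^ m) b ≠ 0) := by
  have hrec := colX_norm_rec R β κ b hb hk
  constructor
  · rw [← star_dot_self_eq_zero, hrec m, hm]
    simp
  · intro hb0
    have hall : ∀ k : ℕ, k ≤ m → ((R.op (rootVec β)) ^ k) b ≠ 0 := by
      intro k
      induction k with
      | zero =>
        intro _
        simpa using hb0
      | succ k ih =>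
        intro hkm
        have h1 := ih (by omega)
        intro h0
        have h2 := hrec k
        rw [h0, hm] at h2
        simp only [star_zero, zero_dotProduct] at h2
        rcases mul_eq_zero.1 h2.symm with h3 | h3
        · have h4 : -(((k : ℝ) + 1) * (-(m : ℝ) + k)) = 0 := by exact_mod_cast h3
          have h5 : (k : ℝ) + 1 ≤ m := by exact_mod_cast hkm
          have h6 : (0 : ℝ) ≤ k := Nat.cast_nonneg k
          nlinarith
        · exact h1 ((star_dot_self_eq_zero _).1 h3)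
    exact hall m le_rfl

/-- integrality: the `e^k b` have pairwise different weights (`wt_finite` / `wt_indep`), so `e^k b = 0` for some `k`; the first such `k ≥ 1` has `k (c - (k-1)) = 0` -/
theorem colX_sl2_int (R : StarRep Ty.D n ι) (β : RootD n) (κ : Vec n) (b : ι → ℂ) (hb : b ∈ R.wt κ)
    (hb0 : b ≠ 0) (hk : R.op (rootVec β.neg) b = 0) : ∃ m : ℕ, dot κ β.vec = -(m : ℝ) := by
  classical
  have hvec : β.vec ≠ 0 := by
    intro h0
    have := sc_vec_dot_self β
    rw [h0] at this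
    simp [dot] at this
  have hex : ∃ k : ℕ, ((R.op (rootVec β)) ^ k) b = 0 := by
    by_contra hne
    push Not at hne
    have hinj : Function.Injective fun k : ℕ => κ + (k : ℝ) • β.vec := by
      intro k l hkl
      have h1 : (k : ℝ) • β.vec = (l : ℝ) • β.vec := add_left_cancel hkl
      have h2 : ((k : ℝ) - l) • β.vec = 0 := by rw [sub_smul, h1, sub_self]
      rcases smul_eq_zero.1 h2 with h3 | h3
      · exact_mod_cast sub_eq_zero.1 h3
      · exact absurd h3 hvec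
    refine Set.infinite_of_injective_forall_mem hinj (fun k => ?_) (wt_finite R)
    show R.wt (κ + (k : ℝ) • β.vec) ≠ ⊥
    intro hbot
    have := colX_pow_wt R β κ b hb k
    rw [hbot, Submodule.mem_bot] at this
    exact hne k this
  have hk0 := Nat.find_spec hex
  have hmin : ∀ j, j < Nat.find hex → ¬ ((R.op (rootVec β)) ^ j) b = 0 :=
    fun j hj => Nat.find_min hex hj
  obtain ⟨j, hj⟩ : ∃ j, Nat.find hex = j + 1 := by
    refine Nat.exists_eq_succ_of_ne_zero ?_
    intro h0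
    rw [h0] at hk0
    exact hb0 (by simpa using hk0)
  rw [hj] at hk0
  have hj0 : ((R.op (rootVec β)) ^ j) b ≠ 0 := hmin j (by omega)
  have h1 := colX_sl2_rec R β κ b hb hk j
  rw [hk0, map_zero] at h1
  rcases smul_eq_zero.1 h1.symm with h2 | h2
  · refine ⟨j, ?_⟩
    have h3 : (0 : ℝ) ≤ j := Nat.cast_nonneg j
    rcases mul_eq_zero.1 h2 with h4 | h4
    · linarith
    · linarith
  · exact absurd h2 hj0

/-! ## (X3) one reflection -/

/-- `f⁻¹ β < 0` : `e_β^m y_f` is the extremal vector of `s_β f` -/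
theorem colX_step (hn : 2 ≤ n) (R : StarRep Ty.D n ι) (v : ι → ℂ) (θ : Vec n) (h : IsHW R v θ)
    (f : Vec n → Vec n) (hf : IsWf f) (y : ι → ℂ) (hy : ColExtr R v θ f y) (β : RootD n)
    (hβ : dot (f (rhoV n)) β.vec < 0) :
    ∃ m : ℕ, dot (f θ) β.vec = -(m : ℝ) ∧ R.op (rootVec β.neg) y = 0 ∧
      ColExtr R v θ (fun x => refl β (f x)) (((R.op (rootVec β)) ^ m) y) ∧
      ((R.op (rootVec β)) ^ (m + 1)) y = 0 := by
  obtain ⟨hy0, hyc, hyw⟩ := hy
  have hkill : R.op (rootVec β.neg) y = 0 := by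
    refine colX_kill hn R v θ h f hf y ⟨hy0, hyc, hyw⟩ β.neg ?_
    rw [rootD_neg_vec, dot_neg_right]
    linarith
  obtain ⟨m, hm⟩ := colX_sl2_int R β (f θ) y hyw hy0 hkill
  obtain ⟨h1, h2⟩ := colX_sl2 R β (f θ) y hyw hkill m hm
  refine ⟨m, hm, hkill, ⟨h2 hy0, ?_, ?_⟩, h1⟩
  · have hall : ∀ k : ℕ, ((R.op (rootVec β)) ^ k) y ∈ R.cyc v := by
      intro k
      induction k with
      | zero => simpa using hyc
      | succ k ih =>
        rw [pow_succ', Module.End.mul_apply]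
        exact cyc_inv R v _ (isRootVec_rootVec β).1 _ ih
    exact hall m
  · have h3 := colX_pow_wt R β (f θ) y hyw m
    have e : refl β (f θ) = f θ + (m : ℝ) • β.vec := by
      unfold refl
      rw [hm, neg_smul, sub_neg_eq_add]
    show _ ∈ R.wt (refl β (f θ))
    rw [e]
    exact h3

/-! ## (X4) tensor products -/

theorem colX_tmul_add_left (a a' : ι → ℂ) (b : ι' → ℂ) : tmul (a + a') b = tmul a b + tmul a' b := by
  exact rkr_tmul_add_left a a' b

theorem colX_tmul_add_right (a : ι → ℂ) (b b' : ι' → ℂ) : tmul a (b + b') = tmul a b + tmul a b' := by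
  exact rkr_tmul_add_right a b b'

theorem colX_tmul_smul_left (c : ℂ) (a : ι → ℂ) (b : ι' → ℂ) : tmul (c • a) b = c • tmul a b := by
  exact rkr_tmul_smul_left c a b

theorem colX_tmul_smul_right (c : ℂ) (a : ι → ℂ) (b : ι' → ℂ) : tmul a (c • b) = c • tmul a b := by
  exact rkr_tmul_smul_right c a b

theorem colX_tmul_zero_left (b : ι' → ℂ) : tmul (0 : ι → ℂ) b = 0 := by
  exact rkr_tmul_zero_left b

theorem colX_tmul_zero_right (a : ι → ℂ) : tmul a (0 : ι' → ℂ) = 0 := by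
  exact rkr_tmul_zero_right a

theorem colX_tmul_ne_zero (a : ι → ℂ) (b : ι' → ℂ) (ha : a ≠ 0) (hb : b ≠ 0) : tmul a b ≠ 0 := by
  exact rkr_tmul_ne_zero a b ha hb

theorem colX_kron_op (R : StarRep Ty.D n ι) (R' : StarRep Ty.D n ι') (X : Matrix (Ix n) (Ix n) ℂ)
    (a : ι → ℂ) (b : ι' → ℂ) :
    (R.kron R').op X (tmul a b) = tmul (R.op X a) b + tmul a (R'.op X b) := by
  exact kron_op_tmul R R' X a b

theorem colX_kron_pow (R : StarRep Ty.D n ι) (R' : StarRep Ty.D n ι') (X : Matrix (Ix n) (Ix n) ℂ)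
    (a : ι → ℂ) (b : ι' → ℂ) (N : ℕ) :
    (((R.kron R').op X) ^ N) (tmul a b) =
      ∑ k ∈ Finset.range (N + 1), (N.choose k : ℂ) • tmul (((R.op X) ^ k) a) (((R'.op X) ^ (N - k)) b) := by
  have hop : ∀ (k : ℕ) (a : ι → ℂ), ((R.op X) ^ k) a = (R.ρ X ^ k) *ᵥ a := by
    intro k a
    show ((Matrix.toLin' (R.ρ X)) ^ k) a = _
    rw [← Matrix.toLin'_pow, Matrix.toLin'_apply]
  have hop' : ∀ (k : ℕ) (b : ι' → ℂ), ((R'.op X) ^ k) b = (R'.ρ X ^ k) *ᵥ b := by
    intro k b
    show ((Matrix.toLin' (R'.ρ X)) ^ k) b = _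
    rw [← Matrix.toLin'_pow, Matrix.toLin'_apply]
  have hP : ∀ k : ℕ, (kroneckerMap (· * ·) (R.ρ X) (1 : Matrix ι' ι' ℂ)) ^ k
      = kroneckerMap (· * ·) (R.ρ X ^ k) (1 : Matrix ι' ι' ℂ) := by
    intro k
    induction k with
    | zero => simp
    | succ k ih => rw [pow_succ, ih, ← mul_kronecker_mul, mul_one, ← pow_succ]
  have hQ : ∀ k : ℕ, (kroneckerMap (· * ·) (1 : Matrix ι ι ℂ) (R'.ρ X)) ^ k
      = kroneckerMap (· * ·) (1 : Matrix ι ι ℂ) (R'.ρ X ^ k) := by
    intro k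
    induction k with
    | zero => simp
    | succ k ih => rw [pow_succ, ih, ← mul_kronecker_mul, mul_one, ← pow_succ]
  have hc : Commute (kroneckerMap (· * ·) (R.ρ X) (1 : Matrix ι' ι' ℂ))
      (kroneckerMap (· * ·) (1 : Matrix ι ι ℂ) (R'.ρ X)) := by
    show _ * _ = _ * _
    rw [← mul_kronecker_mul, ← mul_kronecker_mul, mul_one, one_mul, mul_one, one_mul]
  show ((Matrix.toLin' (kroneckerMap (· * ·) (R.ρ X) (1 : Matrix ι' ι' ℂ) +
    kroneckerMap (· * ·) (1 : Matrix ι ι ℂ) (R'.ρ X))) ^ N) (tmul a b) = _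
  rw [← Matrix.toLin'_pow, Matrix.toLin'_apply, hc.add_pow, Matrix.sum_mulVec]
  refine Finset.sum_congr rfl fun k _ => ?_
  rw [hP, hQ, ← mul_kronecker_mul, mul_one, one_mul, hop, hop', ← rkr_kron_mulVec,
    ← Matrix.smul_mulVec]
  congr 1
  rw [← nsmul_eq_mul', Nat.cast_smul_eq_nsmul]

theorem colX_kron_wt (R : StarRep Ty.D n ι) (R' : StarRep Ty.D n ι') (κ κ' : Vec n) (a : ι → ℂ)
    (b : ι' → ℂ) (ha : a ∈ R.wt κ) (hb : b ∈ R'.wt κ') : tmul a b ∈ (R.kron R').wt (κ + κ') := by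
  exact rkr_tmul_wt R R' κ κ' a ha b hb

/-! ## (X5) products of extremal vectors -/

theorem colX5_pow_zero {V : Type*} [AddCommGroup V] [Module ℂ V] (E : V →ₗ[ℂ] V) (a : V) (m k : ℕ)
    (h : (E ^ (m + 1)) a = 0) (hk : m < k) : (E ^ k) a = 0 := by
  obtain ⟨j, rfl⟩ : ∃ j, k = j + (m + 1) := ⟨k - (m + 1), by omega⟩
  rw [pow_add, Module.End.mul_apply, h, map_zero]

theorem colX5_pow_mem (R : StarRep Ty.D n ι) (S : Submodule ℂ (ι → ℂ)) (hS : R.Inv S)
    (X : Matrix (Ix n) (Ix n) ℂ) (hX : Ty.D.InG X) (a : ι → ℂ) (ha : a ∈ S) (k : ℕ) :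
    ((R.op X) ^ k) a ∈ S := by
  induction k with
  | zero => simpa using ha
  | succ k ih =>
    rw [pow_succ', Module.End.mul_apply]
    exact hS X hX _ ih

theorem colX5_cyc (hn : 2 ≤ n) (R : StarRep Ty.D n ι) (R' : StarRep Ty.D n ι') (v : ι → ℂ)
    (v' : ι' → ℂ) (θ μ : Vec n) (h : IsHW R v θ) (h' : IsHW R' v' μ) (f : Vec n → Vec n)
    (hf : IsWf f) : ∀ (y : ι → ℂ) (y' : ι' → ℂ), ColExtr R v θ f y → ColExtr R' v' μ f y' →
      tmul y y' ∈ (R.kron R').cyc (tmul v v') := by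
  refine colX_induction (fun f => ∀ (y : ι → ℂ) (y' : ι' → ℂ), ColExtr R v θ f y →
    ColExtr R' v' μ f y' → tmul y y' ∈ (R.kron R').cyc (tmul v v')) ?_ ?_ f hf
  · intro y y' hy hy'
    have hid : IsWf (fun x : Vec n => x) := by
      obtain ⟨w, hw⟩ := sc_WD_one (n := n)
      exact ⟨w, (funext hw).symm⟩
    have hv : ColExtr R v θ (fun x => x) v := ⟨h.ne, mem_cyc R v, (mem_wt R θ v).2 h.wt⟩
    have hv' : ColExtr R' v' μ (fun x => x) v' := ⟨h'.ne, mem_cyc R' v', (mem_wt R' μ v').2 h'.wt⟩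
    obtain ⟨c, -, rfl⟩ := colX_unique hn R v θ h _ hid v y hv hy
    obtain ⟨c', -, rfl⟩ := colX_unique hn R' v' μ h' _ hid v' y' hv' hy'
    rw [colX_tmul_smul_left, colX_tmul_smul_right]
    exact Submodule.smul_mem _ _ (Submodule.smul_mem _ _ (mem_cyc _ _))
  · intro f β hf hβp hβ ih y y' hy hy'
    obtain ⟨m, hm, -, hg, -⟩ := colX_step hn R v θ h f hf y hy β hβ
    obtain ⟨m', hm', -, hg', -⟩ := colX_step hn R' v' μ h' f hf y' hy' β hβ
    have hmem := ih _ _ hg hg'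
    have hgf : IsWf (fun x => refl β (f x)) := sc_isFrame_refl f hf β
    have hneg : ∀ u : Vec n, dot (refl β u) β.neg.vec = dot u β.vec := by
      intro u
      rw [rootD_neg_vec, dot_neg_right, sc_dot_refl_left, sc_refl_self, dot_neg_right, neg_neg]
    have hback : (fun x => refl β.neg (refl β (f x))) = f := by
      funext x
      have e : ∀ u : Vec n, refl β.neg u = refl β u := by
        intro u
        unfold refl
        rw [rootD_neg_vec, dot_neg_right, neg_smul_neg]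
      rw [e, sc_refl_refl]
    obtain ⟨k, hk, -, hb, hz⟩ := colX_step hn R v θ h _ hgf _ hg β.neg (by rw [hneg]; exact hβ)
    obtain ⟨k', hk', -, hb', hz'⟩ := colX_step hn R' v' μ h' _ hgf _ hg' β.neg (by rw [hneg]; exact hβ)
    have ek : k = m := by
      rw [hneg, hm] at hk
      exact_mod_cast (neg_injective hk).symm
    have ek' : k' = m' := by
      rw [hneg, hm'] at hk'
      exact_mod_cast (neg_injective hk').symm
    subst ek ek'
    rw [hback] at hb hb'
    obtain ⟨c, hc, ec⟩ := colX_unique hn R v θ h f hf y _ hy hb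
    obtain ⟨c', hc', ec'⟩ := colX_unique hn R' v' μ h' f hf y' _ hy' hb'
    have hpow := colX5_pow_mem (R.kron R') _ (cyc_inv _ _) (rootVec β.neg)
      (isRootVec_rootVec β.neg).1 _ hmem (k + k')
    rw [colX_kron_pow, Finset.sum_eq_single k] at hpow
    · rw [Nat.add_sub_cancel_left, ec, ec', colX_tmul_smul_left, colX_tmul_smul_right] at hpow
      have h1 : ((k + k').choose k : ℂ) ≠ 0 := by
        exact_mod_cast (Nat.choose_pos (Nat.le_add_right k k')).ne'
      exact (Submodule.smul_mem_iff _ hc').1 ((Submodule.smul_mem_iff _ hc).1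
        ((Submodule.smul_mem_iff _ h1).1 hpow))
    · intro j hj hjk
      rcases lt_or_gt_of_ne hjk with hlt | hgt
      · rw [colX5_pow_zero _ _ k' (k + k' - j) hz' (by omega), colX_tmul_zero_right, smul_zero]
      · rw [colX5_pow_zero _ _ k j hz hgt, colX_tmul_zero_left, smul_zero]
    · intro hk
      exact absurd (Finset.mem_range.2 (by omega)) hk

/-- `colX_induction` on `f`, statement for ALL extremal `y`, `y'`.  `f = id`: `y = c v`, `y' = c' v'` (`colX_unique`, `v` is extremal for `id`), `mem_cyc`.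
Step `g = s_β f`, `β > 0`, `(f ρ)·β < 0`: `y_g = e_β^m y`, `y_g' = e_β^m' y'` are extremal for `g` (`colX_step`), so `tmul y_g y_g' ∈ cyc` by induction.  `colX_step` at `(g, β.neg)` (`(g ρ)·(-β) = (f ρ)·β < 0`,
`s_(-β) g = f`, exponents `m`, `m'` again): `e_(-β)^m y_g = c y`, `e_(-β)^m' y_g' = c' y'`, `c c' ≠ 0` (`colX_unique`), `e_(-β)^(m+1) y_g = 0`, `e_(-β)^(m'+1) y_g' = 0`.  `colX_kron_pow` with `N = m + m'`: only `k = m` survives:
`e_(-β)^N (tmul y_g y_g') = choose (m+m') m • c c' • tmul y y'`; `cyc_inv`. -/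
theorem colX_kron (hn : 2 ≤ n) (R : StarRep Ty.D n ι) (R' : StarRep Ty.D n ι') (v : ι → ℂ)
    (v' : ι' → ℂ) (θ μ : Vec n) (h : IsHW R v θ) (h' : IsHW R' v' μ) (f : Vec n → Vec n)
    (hf : IsWf f) (y : ι → ℂ) (y' : ι' → ℂ) (hy : ColExtr R v θ f y) (hy' : ColExtr R' v' μ f y') :
    ColExtr (R.kron R') (tmul v v') (θ + μ) f (tmul y y') := by
  refine ⟨colX_tmul_ne_zero y y' hy.1 hy'.1, colX5_cyc hn R R' v v' θ μ h h' f hf y y' hy hy', ?_⟩
  have hlin : f (θ + μ) = f θ + f μ := (sc_isFrame_linear f hf).map_add θ μ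
  rw [hlin]
  exact colX_kron_wt R R' _ _ y y' hy.2.2 hy'.2.2

/-! ## Demazure subspaces -/

theorem colX_mem_dem (R : StarRep Ty.D n ι) (y : ι → ℂ) : y ∈ colDem R y := by
  unfold colDem
  rw [Submodule.mem_sInf]
  intro S hS
  exact hS.1

theorem colX_dem_op (R : StarRep Ty.D n ι) (y : ι → ℂ) (β : RootD n) (hβ : β.Pos) (a : ι → ℂ)
    (ha : a ∈ colDem R y) : R.op (rootVec β) a ∈ colDem R y := by
  unfold colDem at ha ⊢
  rw [Submodule.mem_sInf] at ha ⊢
  intro S hS
  exact hS.2 β hβ a (ha S hS)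

theorem colX_dem_le (R : StarRep Ty.D n ι) (y : ι → ℂ) (S : Submodule ℂ (ι → ℂ)) (hy : y ∈ S)
    (hS : ∀ β : RootD n, β.Pos → ∀ a ∈ S, R.op (rootVec β) a ∈ S) : colDem R y ≤ S := by
  exact sInf_le ⟨hy, hS⟩

theorem colX_dem_pow (R : StarRep Ty.D n ι) (y : ι → ℂ) (β : RootD n) (hβ : β.Pos) (a : ι → ℂ)
    (ha : a ∈ colDem R y) (k : ℕ) : ((R.op (rootVec β)) ^ k) a ∈ colDem R y := by
  induction k with
  | zero => simpa using ha
  | succ k ih =>
    rw [pow_succ', Module.End.mul_apply]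
    exact colX_dem_op R y β hβ _ ih

end Claimed.Agent.R282
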