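import Claimed.Agent.R282.Col.R.GlueLeaves

/-!
# Row 282, Col, layer (R): Lemma 2.4, one step (glue, no sorry of its own)
-/

set_option autoImplicit false

namespace Claimed.Agent.R282

open Matrix

variable {n : ℕ}

theorem col_isWf_colRefl (M : List (RootD n)) (f : Vec n → Vec n) (hf : IsWf f) :
    IsWf (colRefl M f) := by
  induction M generalizing f with
  | nil => exact hf
  | cons γ M ih => exact ih _ (colF_wf_refl γ f hf)

/-- Lemma 2.4, one step -/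
theorem colR_glue (hn : 2 ≤ n) (h θ h' μ ξ : Vec n) (f : Vec n → Vec n) (M : List (RootD n))
    (hf : IsWf f) (hM : ColNice f M) (hD : DemDatum h θ h' f M) (hO : DemOcc h' μ ξ (colRefl M f)) :
    DemOcc h (θ + μ) ξ f := by
  obtain ⟨m₁, m₃, ι₂, i1, i2, R₁, R₂, R₃, T, v₁, v₂, v₃, y, hT, h₁, h₂, h₃, hy, hne⟩ := hD
  obtain ⟨m₁', m₃', ι₂', i1', i2', R₁', R₂', R₃', T', v₁', v₂', v₃', y', hT', h₁', h₂', h₃', hy',
    x', hx', hne'⟩ := hO
  -- the chain of extremal vectors in the tail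
  obtain ⟨y0, hy0⟩ := colX_exists hn R₂' v₂' μ h₂' f hf
  obtain ⟨E, hE1, hE2, hE3⟩ := colG_chain hn R₂' v₂' μ h₂' f hf M hM y0 hy0
  obtain ⟨c, -, hc⟩ := colX_unique hn R₂' v₂' μ h₂' _ (col_isWf_colRefl M f hf) _ y' hE3 hy'
  -- the composite intertwiner
  obtain ⟨J, hJ1, hJ2, hJ0, -⟩ := rep_unique_perp R₃ R₁' v₃ v₁' h' h₃ h₁'
  obtain ⟨C, hC, hCt⟩ := colG_comp R₁ R₂ R₃ R₁' R₂' R₃' T T' J hT hT' hJ2
  -- the weight of the coefficient
  have hw : colProd R₂ M y ∈ R₂.wt (f θ + (M.map RootD.vec).sum) := colG_prod_wt R₂ M _ y hy.2.2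
  have hδ := colG_wt_eq R₁ R₂ R₃ T hT v₁ v₃ h h' _ h₁ h₃ _ hw hne
  obtain ⟨htop0, htop1⟩ := colG_top hn R₁ R₂ R₃ T hT v₁ v₃ h h' h₁ h₃ v₁' J hJ1 hJ0
  -- the expansion
  obtain ⟨c₁, hc₁, hexp⟩ := colG_expand R₂ R₂' E (by rw [hE1]; exact hM.2)
    (fun p hp => (hM.1 p.1 (by rw [← hE1]; exact List.mem_map_of_mem hp)).1) (f θ) (f μ) y hy.2.2
    y0 hE2
  rw [hE1] at hexp
  have hz : tmul (colProd R₂ M y) (colPow R₂' E y0) ∈ colDem (R₂.kron R₂') (tmul y y0) ⊔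
      tsub (colAbove R₂ (dot (f θ + (M.map RootD.vec).sum) (rhoV n)))
        (⊤ : Submodule ℂ (ι₂' → ℂ)) := by
    have e : tmul (colProd R₂ M y) (colPow R₂' E y0) =
        c₁⁻¹ • colPow (R₂.kron R₂') (E.map fun p => (p.1, p.2 + 1)) (tmul y y0) +
        (-c₁⁻¹) • (colPow (R₂.kron R₂') (E.map fun p => (p.1, p.2 + 1)) (tmul y y0) -
          c₁ • tmul (colProd R₂ M y) (colPow R₂' E y0)) := by
      rw [smul_sub, smul_smul, neg_mul, inv_mul_cancel₀ hc₁, neg_smul, neg_smul, one_smul]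
      abel
    rw [e]
    refine Submodule.add_mem_sup (Submodule.smul_mem _ _ ?_) (Submodule.smul_mem _ _ hexp)
    refine colG_pow_dem _ _ _ ?_ _ (colX_mem_dem _ _)
    intro p hp
    obtain ⟨q, hq, rfl⟩ := List.mem_map.1 hp
    exact (hM.1 q.1 (by rw [← hE1]; exact List.mem_map_of_mem hq)).1
  have hx'' : x' ∈ colDem R₂' (colPow R₂' E y0) := by
    refine colX_dem_le R₂' y' _ ?_ (fun γ hγ a ha => colX_dem_op R₂' _ γ hγ a ha) hx'
    rw [hc]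
    exact Submodule.smul_mem _ c (colX_mem_dem _ _)
  obtain ⟨d, hd, e, he, hde⟩ := Submodule.mem_sup.1
    (colG_dem R₂ R₂' (tmul y y0) _ _ hw _ hz x' hx'')
  -- the functional
  let Λ : (ι₂ × ι₂' → ℂ) →ₗ[ℂ] ℂ :=
    { toFun := fun z => star v₃' ⬝ᵥ C v₁ z
      map_add' := by intro a b; rw [map_add, dotProduct_add]
      map_smul' := by intro r a; rw [map_smul, dotProduct_smul]; rfl }
  have hΛe : Λ e = 0 := by
    refine colG_tsub_kill _ Λ ?_ e he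
    intro a ha b
    show star v₃' ⬝ᵥ C v₁ (tmul a b) = 0
    rw [hCt, htop0 a (by rw [← hδ]; exact ha), map_zero, LinearMap.zero_apply, dotProduct_zero]
  have hΛw : Λ (tmul (colProd R₂ M y) x') ≠ 0 := by
    show star v₃' ⬝ᵥ C v₁ (tmul (colProd R₂ M y) x') ≠ 0
    rw [hCt, htop1 _ (by rw [← hδ]; exact hw), map_smul, LinearMap.smul_apply, dotProduct_smul,
      smul_eq_mul]
    refine mul_ne_zero (div_ne_zero hne ?_) hne'
    intro h0
    exact h₃.ne ((star_dot_self_eq_zero v₃).1 h0)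
  have hΛd : Λ d ≠ 0 := by
    have : Λ d = Λ (tmul (colProd R₂ M y) x') := by rw [← hde, map_add, hΛe, add_zero]
    rw [this]
    exact hΛw
  exact ⟨m₁, m₃', ι₂ × ι₂', inferInstance, inferInstance, R₁, R₂.kron R₂', R₃', C, v₁, tmul v₂ v₂',
    v₃', tmul y y0, hC, h₁, isHW_kron R₂ R₂' v₂ v₂' θ μ h₂ h₂', h₃',
    colX_kron hn R₂ R₂' v₂ v₂' θ μ h₂ h₂' f hf y y0 hy hy0, d, hd, hΛd⟩

end Claimed.Agent.R282
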