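import Claimed.Agent.R282.Col.R.Defs
import Claimed.Agent.R282.Col.Small

/-!
# Row 282, Col, layer (R), LEAF L-COL-R0 : the two trivial ends (~250 lines)

`colR_nil`: `xi = halfV L`, `L` dominant (`Dom`, `IsWtD`; `L i = 2 xi i`); `(m, R, v)` from `rep_exists L`.  `R₁ = R₃ = R`, `ι₂ = Unit` (or `Fin 1`), `R₂.ρ = 0`, `v₂ = y = x = 1`,
`T a b = b () • a`.  `IsHW R₂ 1 0`: everything is `0`.  `f 0 = 0` (`colF_wf_lin`).  `y ∈ colDem R₂ y`: by definition of `sInf`.  `star v ⬝ᵥ v ≠ 0` (`star_dot_self_eq_zero`).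
`colR_rep`: `x ∈ colDem R₂ y ≤ R₂.cyc v₂` (`cyc_inv`, `isRootVec_rootVec`).  Reindex `R₂` along `e = Fintype.equivFin ι₂` (`StarRep.reindex`, `reindex_op`, `reindex_isHW`, `reindex_cyc`),
`T' a b = T a (b ∘ e)`; `a = v₁`, `c = v₃` (`mem_cyc`).  `RepEquivar` is `RepOcc`'s equivariance by `op_apply`.
-/

set_option autoImplicit false

namespace Claimed.Agent.R282

variable {n : ℕ}

open Claims.C0456 Matrix in
/-- dominant weights are halves of doubled dominant weights -/
theorem colR0_half (h : Vec n) (hd : Dom h) (hw : IsWtD h) :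
    ∃ L : Fin n → ℤ, IsDominantWeight2 L ∧ h = halfV L := by
  rcases hw with hw | hw
  · choose z hz using hw
    refine ⟨fun i => 2 * z i, ⟨fun i j => ⟨z i - z j, by ring⟩, fun i j hij => ?_⟩, ?_⟩
    · have h1 := abs_le.1 (hd i j hij)
      rw [hz i, hz j] at h1
      have h2 : -(z i) ≤ z j := by exact_mod_cast h1.1
      have h3 : z j ≤ z i := by exact_mod_cast h1.2
      exact abs_le.2 ⟨by linarith, by linarith⟩
    · funext i
      unfold halfV
      rw [hz i]
      push_cast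
      ring
  · choose z hz using hw
    refine ⟨fun i => 2 * z i + 1, ⟨fun i j => ⟨z i - z j, by ring⟩, fun i j hij => ?_⟩, ?_⟩
    · have h1 := abs_le.1 (hd i j hij)
      rw [hz i, hz j] at h1
      have h2 : (-(z i) - 1 : ℝ) ≤ z j := by linarith [h1.1]
      have h2' : -(z i) - 1 ≤ z j := by exact_mod_cast h2
      have h3 : (z j : ℝ) ≤ z i := by linarith [h1.2]
      have h3' : z j ≤ z i := by exact_mod_cast h3
      exact abs_le.2 ⟨by linarith, by linarith⟩
    · funext i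
      unfold halfV
      rw [hz i]
      push_cast
      ring

/-- the trivial representation -/
noncomputable def colR0Triv (n : ℕ) : StarRep Ty.D n Unit where
  ρ := 0
  bracket := by intro X Y _ _; simp
  star := by intro X _; simp

theorem colR0_triv_op (X : Matrix (Ix n) (Ix n) ℂ) (b : Unit → ℂ) : (colR0Triv n).op X b = 0 := by
  simp [StarRep.op, colR0Triv]

theorem colR0_triv_hw : IsHW (colR0Triv n) (fun _ => 1) 0 := by
  refine ⟨?_, ?_, ?_⟩
  · intro h
    have := congrFun h ()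
    simp at this
  · intro x
    rw [dot_zero_left]
    simp [colR0Triv]
  · intro β E _ _
    simp [colR0Triv]

/-- the identity map -/
theorem colR_nil (hn : 2 ≤ n) (xi : Vec n) (hd : Dom xi) (hw : IsWtD xi) (f : Vec n → Vec n)
    (hf : IsWf f) : DemOcc xi 0 xi f := by
  obtain ⟨L, hL, rfl⟩ := colR0_half xi hd hw
  obtain ⟨m, R, v, hv⟩ := rep_exists L hL
  have hf0 : f 0 = 0 := by
    have := (colF_wf_lin f hf).2.1 0 0
    simpa using this
  let T : (Fin m → ℂ) →ₗ[ℂ] (Unit → ℂ) →ₗ[ℂ] (Fin m → ℂ) :=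
    LinearMap.mk₂ ℂ (fun a b => b () • a)
      (fun a a' b => smul_add _ _ _)
      (fun c a b => smul_comm _ _ _)
      (fun a b b' => add_smul _ _ _)
      (fun c a b => mul_smul _ _ _)
  have hT : ∀ a b, T a b = b () • a := fun a b => rfl
  refine ⟨m, m, Unit, inferInstance, inferInstance, R, colR0Triv n, R, T, v, fun _ => 1, v,
    fun _ => 1, ?_, hv, colR0_triv_hw, hv, ⟨(colR0_triv_hw (n := n)).ne, mem_cyc _ _, ?_⟩, fun _ => 1, ?_, ?_⟩
  · intro X _ a b
    rw [hT, hT, hT, colR0_triv_op, map_smul]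
    simp
  · rw [hf0, mem_wt]
    intro x
    rw [colR0_triv_op, dot_zero_left]
    simp
  · unfold colDem
    rw [Submodule.mem_sInf]
    intro S hS
    exact hS.1
  · rw [hT, one_smul]
    intro h0
    exact hv.ne ((star_dot_self_eq_zero v).1 h0)

/-- forget the extra data (reindex the middle representation by `Fin m`) -/
theorem colR_rep (h μ ξ : Vec n) (f : Vec n → Vec n) (hO : DemOcc h μ ξ f) :
    RepOcc Ty.D h μ ξ := by
  obtain ⟨m₁, m₃, ι₂, _, _, R₁, R₂, R₃, T, v₁, v₂, v₃, y, hT, h₁, h₂, h₃, hy, x, hx, hne⟩ := hO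
  set e := Fintype.equivFin ι₂ with he
  have hT' : ∀ a b, (T.compl₂ (LinearMap.funLeft ℂ ℂ e)) a b = T a (b ∘ e) := fun a b => rfl
  have hxc : x ∈ R₂.cyc v₂ := by
    have hle : colDem R₂ y ≤ R₂.cyc v₂ :=
      sInf_le ⟨hy.2.1, fun β _ a ha => cyc_inv R₂ v₂ _ (isRootVec_rootVec β).1 a ha⟩
    exact hle hx
  refine ⟨m₁, Fintype.card ι₂, m₃, R₁, R₂.reindex e, R₃, T.compl₂ (LinearMap.funLeft ℂ ℂ e),
    v₁, v₂ ∘ e.symm, v₃, ?_, h₁, reindex_isHW R₂ e v₂ μ h₂, h₃, v₁, mem_cyc _ _, x ∘ e.symm,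
    (reindex_cyc R₂ e v₂ x).2 hxc, v₃, mem_cyc _ _, ?_⟩
  · intro X hX a b
    rw [hT', hT', hT']
    have h1 := hT X hX a (b ∘ e)
    rw [op_apply, op_apply] at h1
    rw [h1]
    congr 2
    have h2 := reindex_op R₂ e X (b ∘ e)
    have h3 : (b ∘ e) ∘ e.symm = b := by
      funext i
      simp
    rw [h3] at h2
    rw [← op_apply, h2]
    funext i
    simp
  · rw [hT']
    have h3 : (x ∘ e.symm) ∘ e = x := by
      funext i
      simp
    rw [h3]
    exact hne

end Claimed.Agent.R282
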